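import Vale.Agent.P130.Tooth

/-! Block structure of trigonometric sums. -/

namespace Vale.Agent.P130

open Real Finset MeasureTheory intervalIntegral Vale.Agent.P110

/-- The trigonometric sum of a word. -/
noncomputable def FT (h : ℕ) (c : ℕ → ℂ) (t : ℝ) : ℂ := ∑ j ∈ range h, c j * ee (j * t)

/-- The projection from one level to the previous one. -/
def pr (h : ℕ) (X : ℕ → ℕ) (j : ℕ) : ℕ := (j + X (j / h)) % h

lemma FT_BM (h : ℕ) (c : ℕ → ℂ) : BM (FT h c) :=
  BM.sum _ fun _ _ => (BM.const _).mul (BM.ee (by fun_prop))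

lemma I2_FT (h : ℕ) (c : ℕ → ℂ) : I2 (FT h c) = ∑ j ∈ range h, ‖c j‖ ^ 2 := by
  have := I2_poly (range h) c (fun k => (k : ℤ)) (fun _ _ _ _ h => by simpa using h)
  simp only [Int.cast_natCast] at this
  exact this

lemma norm_FT_sq (h : ℕ) (c : ℕ → ℂ) (t : ℝ) : ‖FT h c t‖ ^ 2 ≤ h * ∑ j ∈ range h, ‖c j‖ ^ 2 := by
  have h1 : ‖FT h c t‖ ≤ ∑ j ∈ range h, ‖c j‖ :=
    (norm_sum_le _ _).trans (le_of_eq (by simp))
  have h2 := sq_sum_le_card_mul_sum_sq (s := range h) (f := fun j => ‖c j‖)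
  rw [Finset.card_range] at h2
  exact (pow_le_pow_left₀ (norm_nonneg _) h1 2).trans h2

lemma sum_blocks {M : Type*} [AddCommMonoid M] (q h : ℕ) (G : ℕ → M) :
    ∑ j ∈ range (q * h), G j = ∑ k ∈ range q, ∑ r ∈ range h, G (k * h + r) := by
  induction q with
  | zero => simp
  | succ q ih => rw [Nat.succ_mul, Finset.sum_range_add, ih, Finset.sum_range_succ]

lemma pr_blk {h : ℕ} (X : ℕ → ℕ) (k : ℕ) {r : ℕ} (hr : r < h) : pr h X (k * h + r) = (X k + r) % h := by
  unfold pr
  have : (k * h + r) / h = k := by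
    rw [add_comm, Nat.add_mul_div_right _ _ (by omega), Nat.div_eq_of_lt hr, zero_add]
  rw [this, add_assoc, Nat.mul_add_mod_self_right, add_comm]

lemma blk_inj {h k k' a a' : ℤ} (h0 : 0 ≤ a) (h1 : a < h) (h2 : 0 ≤ a') (h3 : a' < h)
    (e : k * h + a = k' * h + a') : k = k' := by
  rcases lt_trichotomy k k' with h4 | h4 | h4
  · nlinarith
  · exact h4
  · nlinarith

lemma I2_dir_FT (q h : ℕ) (c : ℕ → ℂ) :
    I2 (fun t => dir q (h * t) * FT h c t) = q * ∑ j ∈ range h, ‖c j‖ ^ 2 := by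
  have := I2_poly (range q ×ˢ range h) (fun p => c p.2) (fun p => p.1 * h + p.2) (by
    rintro ⟨k, r⟩ hp ⟨k', r'⟩ hp' e
    simp only [Finset.coe_product, Finset.coe_range, Set.mem_prod, Set.mem_Iio] at hp hp' e
    have h1 := blk_inj (by positivity) (by exact_mod_cast hp.2) (by positivity)
      (by exact_mod_cast hp'.2) e
    rw [h1] at e
    exact Prod.ext (by exact_mod_cast h1) (by exact_mod_cast add_left_cancel e))
  rw [Finset.sum_product] at this
  simp only [Finset.sum_const, Finset.card_range, nsmul_eq_mul] at this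
  rw [← this]
  congr 1; ext t
  unfold dir FT
  rw [Finset.sum_mul_sum, Finset.sum_product]
  refine Finset.sum_congr rfl fun k _ => Finset.sum_congr rfl fun r _ => ?_
  push_cast
  rw [add_mul, ee_add, mul_assoc (k:ℝ)]; ring

lemma rot_FT {h X : ℕ} (hX : X ≤ h) (c : ℕ → ℂ) (t : ℝ) :
    ∑ r ∈ range h, c ((X + r) % h) * ee (r * t) =
      ee (-(X * t)) * (FT h c t + (ee (h * t) - 1) * FT X c t) := by
  have h1 := Finset.sum_range_add (fun i => c (i % h) * ee (i * t)) X h
  rw [add_comm X h, Finset.sum_range_add] at h1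
  have e1 : ∑ i ∈ range h, c (i % h) * ee (i * t) = FT h c t :=
    Finset.sum_congr rfl fun i hi => by rw [Nat.mod_eq_of_lt (Finset.mem_range.1 hi)]
  have e2 : ∑ i ∈ range X, c (i % h) * ee (i * t) = FT X c t :=
    Finset.sum_congr rfl fun i hi => by rw [Nat.mod_eq_of_lt ((Finset.mem_range.1 hi).trans_le hX)]
  have e3 : ∑ i ∈ range X, c ((h + i) % h) * ee ((h + i : ℕ) * t) = ee (h * t) * FT X c t := by
    unfold FT
    rw [Finset.mul_sum]
    refine Finset.sum_congr rfl fun i hi => ?_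
    rw [Nat.add_mod_left, Nat.mod_eq_of_lt ((Finset.mem_range.1 hi).trans_le hX)]
    push_cast; rw [add_mul, ee_add]; ring
  have e4 : ∑ r ∈ range h, c ((X + r) % h) * ee ((X + r : ℕ) * t) =
      ee (X * t) * ∑ r ∈ range h, c ((X + r) % h) * ee (r * t) := by
    rw [Finset.mul_sum]
    refine Finset.sum_congr rfl fun i _ => ?_
    push_cast; rw [add_mul, ee_add]; ring
  rw [e1, e2, e3, e4] at h1
  have := ee_mul_neg (X * t)
  linear_combination (-ee (-(X * t))) * h1 - (∑ r ∈ range h, c ((X + r) % h) * ee (r * t)) * this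

lemma wrap {q h l : ℕ} {X : ℕ → ℕ} (hX : ∀ k, X k < l) (hl : l ≤ h) (c : ℕ → ℂ) {B : ℝ}
    (hB : ∀ j < l, ‖c j‖ ≤ B) :
    I2 (fun t => FT (q * h) (fun j => c (pr h X j)) t -
      (∑ k ∈ range q, ee (k * (h * t)) * ee (-(X k * t))) * FT h c t) ≤ 4 * (q * (l * B ^ 2)) := by
  have e1 : ∀ t, FT (q * h) (fun j => c (pr h X j)) t -
      (∑ k ∈ range q, ee (k * (h * t)) * ee (-(X k * t))) * FT h c t = (ee (h * t) - 1) *
      ∑ p ∈ (range q).sigma fun k => range (X k), c p.2 * ee ((p.1 * h - X p.1 + p.2 : ℤ) * t) := by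
    intro t
    rw [Finset.sum_sigma, FT, sum_blocks, Finset.sum_mul, ← Finset.sum_sub_distrib, Finset.mul_sum]
    refine Finset.sum_congr rfl fun k _ => ?_
    have h1 : ∑ r ∈ range h, c (pr h X (k * h + r)) * ee ((k * h + r : ℕ) * t) =
        ee (k * (h * t)) * ∑ r ∈ range h, c ((X k + r) % h) * ee (r * t) := by
      rw [Finset.mul_sum]
      refine Finset.sum_congr rfl fun r hr => ?_
      rw [pr_blk X k (Finset.mem_range.1 hr)]
      push_cast; rw [add_mul, ee_add, mul_assoc (k:ℝ)]; ring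
    have h2 : ∑ j ∈ range (X k), c j * ee ((k * h - X k + j : ℤ) * t) =
        ee (k * (h * t)) * ee (-(X k * t)) * FT (X k) c t := by
      rw [FT, Finset.mul_sum]
      refine Finset.sum_congr rfl fun r _ => ?_
      have : ((k * h - X k + r : ℤ) : ℝ) * t = k * (h * t) + -(X k * t) + r * t := by push_cast; ring
      rw [this, ee_add, ee_add]; ring
    rw [h1, h2, rot_FT ((hX k).le.trans hl)]; ring
  simp_rw [e1]
  refine (I2_mul_le ((BM.ee (by fun_prop)).sub (BM.const 1)) (BM.sum _ fun _ _ =>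
    (BM.const _).mul (BM.ee (by fun_prop))) (C := 2) fun t => (norm_sub_le _ _).trans
      (by simp; norm_num)).trans ?_
  rw [I2_poly _ (fun p : (Σ _ : ℕ, ℕ) => c p.2) (fun p => (p.1 * h - X p.1 + p.2 : ℤ)) (by
    rintro ⟨k, r⟩ hp ⟨k', r'⟩ hp' e
    simp only [Finset.coe_sigma, Finset.coe_range, Set.mem_sigma_iff, Set.mem_Iio] at hp hp' e
    have q1 := hX k
    have q2 := hX k'
    have h1 : (k : ℤ) = k' := blk_inj (h := h) (a := h - X k + r) (a' := h - X k' + r') (by omega)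
      (by omega) (by omega) (by omega) (by linarith)
    have h2 : k = k' := by exact_mod_cast h1
    subst h2
    have h3 : r = r' := by omega
    rw [h3]), Finset.sum_sigma]
  have : ∑ k ∈ range q, ∑ j ∈ range (X k), ‖c j‖ ^ 2 ≤ q * (l * B ^ 2) := by
    refine (Finset.sum_le_card_nsmul _ _ (l * B ^ 2) fun k _ => ?_).trans (by simp)
    refine (Finset.sum_le_card_nsmul _ _ (B ^ 2) fun j hj => pow_le_pow_left₀ (norm_nonneg _)
      (hB j ((Finset.mem_range.1 hj).trans (hX k))) 2).trans ?_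
    rw [Finset.card_range, nsmul_eq_mul]
    exact mul_le_mul_of_nonneg_right (by exact_mod_cast (hX k).le) (by positivity)
  linarith

lemma abel (c : ℕ → ℂ) (t : ℝ) (n : ℕ) : FT n c t =
    (1 - ee t) * FT n (fun j => ∑ i ∈ range (j + 1), c i) t + (∑ i ∈ range n, c i) * ee (n * t) := by
  induction n with
  | zero => simp [FT]
  | succ n ih =>
    have h : ∀ c, FT (n + 1) c t = FT n c t + c n * ee (n * t) := fun c => Finset.sum_range_succ _ _
    rw [h, h, ih, Finset.sum_range_succ c n]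
    push_cast; rw [add_mul (n:ℝ), one_mul, ee_add]; ring

lemma norm_dir_mul (n : ℕ) (t : ℝ) : ‖dir n (-t) * (1 - ee t)‖ ≤ 2 := by
  have h1 : dir n (-t) * (ee (-t) - 1) = ee (-t) ^ n - 1 := by
    unfold dir; simp_rw [ee_nat_mul]; exact geom_sum_mul _ _
  have h2 : dir n (-t) * (1 - ee t) = (ee (-t) ^ n - 1) * ee t := by
    rw [← h1]; linear_combination (-dir n (-t)) * ee_mul_neg t
  rw [h2, norm_mul, norm_ee, mul_one]
  refine (norm_sub_le _ _).trans ?_
  rw [norm_pow, norm_ee]; norm_num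

lemma norm_dir_le' (n : ℕ) (t : ℝ) : ‖dir n t‖ ≤ n :=
  (norm_sum_le _ _).trans (le_of_eq (by simp))

lemma dir_BM (n : ℕ) {g : ℝ → ℝ} (hg : Measurable g) : BM fun t => dir n (g t) :=
  ⟨(continuous_dir n).measurable.comp hg, n, fun _ => norm_dir_le' _ _⟩

lemma I2_seven {a b c d e f g : ℝ → ℂ} (ha : BM a) (hb : BM b) (hc : BM c) (hd : BM d) (he : BM e)
    (hf : BM f) (hg : BM g) : I2 (fun t => a t + b t + c t + d t + e t + f t + g t) ≤
      7 * (I2 a + I2 b + I2 c + I2 d + I2 e + I2 f + I2 g) := by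
  have := I2_sum_le univ (f := ![a, b, c, d, e, f, g]) fun i _ => by
    fin_cases i <;> simpa
  simpa [Fin.sum_univ_seven] using this

end Vale.Agent.P130
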