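import Vale.Agent.P110.Torus

/-! Products of copies of the flat torus function. -/

namespace Vale.Agent.P130

open Real Finset Matrix Vale.Agent.P110

/-- The vector attached to an optional signed harmonic. -/
def ov {r : ℕ} {ι : Type} (v : ι → Fin r → ℤ) : Option (ι × Bool) → Fin r → ℤ
  | none => 0
  | some (i, true) => v i
  | some (i, false) => -v i

/-- The phase attached to an optional signed harmonic. -/
def op {ι : Type} (ph : ι → ℝ) : Option (ι × Bool) → ℝ
  | none => 0
  | some (i, true) => ph i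
  | some (i, false) => -ph i

/-- The weight attached to an optional signed harmonic. -/
def ow {ι : Type} (w : ι → ℝ) : Option (ι × Bool) → ℝ
  | none => 1
  | some (i, _) => w i

/-- Sign reversal. -/
def ng {ι : Type} : Option (ι × Bool) → Option (ι × Bool)
  | none => none
  | some (i, b) => some (i, !b)

lemma ng_ng {ι : Type} (o : Option (ι × Bool)) : ng (ng o) = o := by
  rcases o with _ | ⟨i, b⟩ <;> simp [ng]

lemma ov_ng {r : ℕ} {ι : Type} (v : ι → Fin r → ℤ) (o : Option (ι × Bool)) : ov v (ng o) = -ov v o := by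
  rcases o with _ | ⟨i, _ | _⟩ <;> simp [ng, ov]

lemma op_ng {ι : Type} (ph : ι → ℝ) (o : Option (ι × Bool)) : op ph (ng o) = -op ph o := by
  rcases o with _ | ⟨i, _ | _⟩ <;> simp [ng, op]

lemma ow_ng {ι : Type} (w : ι → ℝ) (o : Option (ι × Bool)) : ow w (ng o) = ow w o := by
  rcases o with _ | ⟨i, _ | _⟩ <;> simp [ng, ow]

lemma isSome_ng {ι : Type} (o : Option (ι × Bool)) : (ng o).isSome = o.isSome := by
  rcases o with _ | ⟨i, _ | _⟩ <;> simp [ng]

theorem torus_prod (B : Type) [Fintype B] [DecidableEq B] [Nonempty B] {ε : ℝ} (hε : 0 < ε) :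
    ∃ (r : ℕ) (ι : Type) (_ : Fintype ι) (_ : DecidableEq ι)
    (v e h : ι → Fin r → ℤ) (β : Fin r → ℤ) (w ph : ι → ℝ) (fam : ι → Finset B)
    (G : B → (Fin r → ℝ) → ℝ),
    (∀ i, v i ⬝ᵥ e i = 1) ∧ (∀ i, v i ⬝ᵥ h i = 0) ∧ (∀ i j, j ≠ i → v j ⬝ᵥ h i ≠ 0) ∧
    (∀ i, 0 < v i ⬝ᵥ β) ∧ (∀ i, 0 < w i) ∧ 2 * ∑ i, w i = 1 ∧ (∀ j α, |G j α| ≤ 1 + ε) ∧
    ∀ S : Finset B, S.Nonempty → (2 ^ Fintype.card B - 1) * (2 * ∑ i with fam i = S, w i) = 1 ∧
      ∀ α, √(2 ^ Fintype.card B - 1) *
        ∑ i with fam i = S, 2 * √(w i) * Real.cos (2 * π * (ph i + dr (v i) α)) = ∏ j ∈ S, G j α := by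
  classical
  obtain ⟨r, ι, _, _, v, e, h, β, w, ph, he, hh, hh', hβ, hw0, hw, hG⟩ := torus hε
  set R := Fintype.card (B × Fin r)
  set E : B × Fin r ≃ Fin R := Fintype.equivFin _
  set V : (B → Option (ι × Bool)) → Fin R → ℤ := fun c l => ov v (c (E.symm l).1) (E.symm l).2 with hV
  have hVd : ∀ c (g : B → Fin r → ℤ), V c ⬝ᵥ (fun l => g (E.symm l).1 (E.symm l).2) =
      ∑ j, ov v (c j) ⬝ᵥ g j := by
    intro c g
    simp only [hV, dotProduct]
    rw [Equiv.sum_comp E.symm fun p : B × Fin r => ov v (c p.1) p.2 * g p.1 p.2, Fintype.sum_prod_type]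
  have hVr : ∀ c (α : Fin R → ℝ), dr (V c) α = ∑ j, dr (ov v (c j)) fun l => α (E (j, l)) := by
    intro c α
    simp only [hV, dr]
    rw [← Equiv.sum_comp E, Fintype.sum_prod_type]
    simp
  have hVc : ∀ c c' (a : ℤ), V c' = a • V c → ∀ j, ov v (c' j) = a • ov v (c j) := by
    intro c c' a hc j
    funext l
    simpa [hV] using congrFun hc (E (j, l))
  have hv0 : ∀ i, v i ≠ 0 := fun i h0 => by simpa [h0] using he i
  have hov0 : ∀ o, ov v o = 0 → o = none := by
    rintro (_ | ⟨i, _ | _⟩) h0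
    · rfl
    · exact absurd (neg_eq_zero.1 h0) (hv0 i)
    · exact absurd h0 (hv0 i)
  set fm : (B → Option (ι × Bool)) → Finset B := fun c => univ.filter fun j => (c j).isSome with hfm
  have hV0 : ∀ c, (fm c).Nonempty → V c ≠ 0 := by
    rintro c ⟨j, hj⟩ h0
    have := hov0 _ (by simpa using hVc c c 0 (by simpa using h0) j)
    simp [hfm, this] at hj
  have hV1 : ∀ c, V c ≠ 0 → (fm c).Nonempty := by
    intro c hc
    by_contra h0
    apply hc
    funext l
    have : ¬ (c (E.symm l).1).isSome := fun h1 => h0 ⟨(E.symm l).1, by simp [hfm, h1]⟩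
    simp only [hV]
    rw [Option.not_isSome_iff_eq_none.1 this]; rfl
  obtain ⟨β', hβ'⟩ := exists_generic ((univ.filter fun c => (fm c).Nonempty).image V) (by
    intro u hu
    obtain ⟨c, hc, rfl⟩ := Finset.mem_image.1 hu
    exact hV0 c (Finset.mem_filter.1 hc).2)
  have hβ'' : ∀ c, (fm c).Nonempty → V c ⬝ᵥ β' ≠ 0 := fun c hc =>
    hβ' _ (Finset.mem_image.2 ⟨c, Finset.mem_filter.2 ⟨Finset.mem_univ _, hc⟩, rfl⟩)
  have hpos : ∀ c, 0 < V c ⬝ᵥ β' → (fm c).Nonempty := fun c hc => hV1 c fun h0 => by simp [h0] at hc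
  have hVng : ∀ c, V (fun j => ng (c j)) = -V c := fun c => by
    funext l; simp [hV, ov_ng]
  have hfmng : ∀ c, fm (fun j => ng (c j)) = fm c := fun c => by simp [hfm, isSome_ng]
  set N : (B → Option (ι × Bool)) ≃ (B → Option (ι × Bool)) :=
    ⟨fun c j => ng (c j), fun c j => ng (c j), fun c => by funext j; exact ng_ng _,
      fun c => by funext j; exact ng_ng _⟩ with hN
  have half : ∀ S : Finset B, S.Nonempty → ∀ F : (B → Option (ι × Bool)) → ℝ,
      (∀ c, F (fun j => ng (c j)) = F c) →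
      ∑ c with fm c = S, F c = 2 * ∑ i : {c // 0 < V c ⬝ᵥ β'} with fm i.1 = S, F i.1 := by
    intro S hS F hF
    have h1 : ∑ i : {c // 0 < V c ⬝ᵥ β'} with fm i.1 = S, F i.1 =
        ∑ c, if 0 < V c ⬝ᵥ β' ∧ fm c = S then F c else 0 := by
      rw [Finset.sum_filter, ← Finset.sum_subtype (univ.filter fun c => 0 < V c ⬝ᵥ β') (by simp)
        fun c => if fm c = S then F c else 0, Finset.sum_filter]
      exact Finset.sum_congr rfl fun c _ => by rw [ite_and]
    have h2 : ∑ c, (if 0 < V c ⬝ᵥ β' ∧ fm c = S then F c else 0) =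
        ∑ c, if V c ⬝ᵥ β' < 0 ∧ fm c = S then F c else 0 := by
      rw [← Equiv.sum_comp N]
      refine Finset.sum_congr rfl fun c _ => ?_
      simp only [hN, Equiv.coe_fn_mk, hVng, hfmng, hF, neg_dotProduct, Left.neg_pos_iff]
    rw [h1, two_mul]
    conv_rhs => rw [h2]; congr; rw [← h2]
    rw [← Finset.sum_add_distrib, Finset.sum_filter]
    refine Finset.sum_congr rfl fun c _ => ?_
    by_cases hc : fm c = S
    · have := hβ'' c (hc ▸ hS)
      rcases lt_or_gt_of_ne this with h3 | h3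
      · simp [hc, h3, h3.le]
      · simp [hc, h3, h3.le]
    · simp [hc]
  have expand : ∀ (S : Finset B) (f : B → Option (ι × Bool) → ℂ), (∀ j, f j none = 1) →
      ∑ c with fm c = S, ∏ j, f j (c j) = ∏ j ∈ S, ∑ p : ι × Bool, f j (some p) := by
    intro S f hf
    have h1 := Finset.prod_univ_sum (fun _ : B => (univ : Finset (Option (ι × Bool))))
      fun j o => if (o.isSome ↔ j ∈ S) then f j o else 0
    rw [Fintype.piFinset_univ] at h1
    rw [Finset.sum_filter]
    have h2 : ∀ c : B → Option (ι × Bool), (if fm c = S then ∏ j, f j (c j) else 0) =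
        ∏ j, if ((c j).isSome ↔ j ∈ S) then f j (c j) else 0 := by
      intro c
      by_cases hc : fm c = S
      · rw [if_pos hc]
        refine Finset.prod_congr rfl fun j _ => (if_pos ?_).symm
        simp [← hc, hfm]
      · rw [if_neg hc]
        obtain ⟨j, hj⟩ := not_forall.1 fun h0 => hc (Finset.ext h0)
        exact (Finset.prod_eq_zero (Finset.mem_univ j) (if_neg (by simpa [hfm] using hj))).symm
    simp_rw [h2]
    rw [← h1, ← Finset.prod_subset (Finset.subset_univ S)]
    · exact Finset.prod_congr rfl fun j hj => by simp [Fintype.sum_option, hj]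
    · intro j _ hj; simp [Fintype.sum_option, hj, hf]
  obtain ⟨Λ, hΛ⟩ : ∃ Λ : ℝ, Λ = 2 ^ Fintype.card B - 1 := ⟨_, rfl⟩
  have hΛ0 : 0 < Λ := by
    have : (1:ℝ) < 2 ^ Fintype.card B := one_lt_pow₀ (by norm_num) Fintype.card_ne_zero
    linarith
  rw [← hΛ]
  have how0 : ∀ o, 0 < ow w o := by
    rintro (_ | ⟨i, b⟩)
    · exact one_pos
    · exact hw0 i
  have hfam : ∀ S : Finset B, S.Nonempty →
      Λ * (2 * ∑ i : {c // 0 < V c ⬝ᵥ β'} with fm i.1 = S, (∏ j, ow w (i.1 j)) / Λ) = 1 := by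
    intro S hS
    rw [← half S hS (fun c => (∏ j, ow w (c j)) / Λ) (fun c => by simp [ow_ng]), ← Finset.sum_div,
      mul_div_cancel₀ _ hΛ0.ne']
    have h1 := expand S (fun _ o => (ow w o : ℂ)) (fun _ => by simp [ow])
    have h2 : ∑ p : ι × Bool, (ow w (some p) : ℂ) = 1 := by
      rw [Fintype.sum_prod_type]
      simp only [ow, Finset.sum_const, Finset.card_univ, Fintype.card_bool, nsmul_eq_mul]
      rw [← Finset.mul_sum]; exact_mod_cast hw
    rw [h2, Finset.prod_const_one] at h1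
    exact_mod_cast h1
  have he' : ∀ i : {c // 0 < V c ⬝ᵥ β'}, ∃ e', V i.1 ⬝ᵥ e' = 1 := by
    rintro ⟨c, hc⟩
    obtain ⟨j, hj⟩ := hpos c hc
    obtain ⟨⟨i, b⟩, hi⟩ := Option.isSome_iff_exists.1 (Finset.mem_filter.1 hj).2
    refine ⟨_, (hVd c fun j' => if j' = j then (if b then e i else -e i) else 0).trans ?_⟩
    rw [Finset.sum_eq_single j (fun j' _ h => by simp [h]) (by simp), hi]
    rcases b with _ | _ <;> simp [ov, he]
  choose e' he' using he'
  have hh2 : ∀ i : {c // 0 < V c ⬝ᵥ β'}, ∃ h', V i.1 ⬝ᵥ h' = 0 ∧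
      ∀ i' : {c // 0 < V c ⬝ᵥ β'}, i' ≠ i → V i'.1 ⬝ᵥ h' ≠ 0 := by
    intro i
    obtain ⟨g, hg⟩ := exists_generic ((univ.erase i).image fun i' : {c // 0 < V c ⬝ᵥ β'} =>
      V i'.1 - (V i'.1 ⬝ᵥ e' i) • V i.1) (by
      intro u hu h0
      obtain ⟨i', hi', rfl⟩ := Finset.mem_image.1 hu
      apply (Finset.mem_erase.1 hi').1
      generalize V i'.1 ⬝ᵥ e' i = a at h0
      have h1 := sub_eq_zero.1 h0
      have ha : 0 < a := by
        have h2 := i'.2
        rw [h1, smul_dotProduct, smul_eq_mul] at h2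
        exact (mul_pos_iff_of_pos_right i.2).1 h2
      refine Subtype.ext (funext fun j => ?_)
      have h2 := hVc _ _ a h1 j
      rcases hc : i.1 j with _ | ⟨k, b⟩
      · rw [hc] at h2; exact hov0 _ (by simpa [ov] using h2)
      · rcases hc' : i'.1 j with _ | ⟨k', b'⟩
        · rw [hc, hc'] at h2
          have h3 := congrArg (· ⬝ᵥ e k) h2
          simp only [smul_dotProduct, smul_eq_mul] at h3
          rcases b with _ | _ <;> simp [ov, he] at h3 <;> omega
        · rw [hc, hc'] at h2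
          have hk : k' = k := by
            by_contra hk
            have h3 := congrArg (· ⬝ᵥ h k) h2
            have h4 := hh' k k' hk
            simp only [smul_dotProduct, smul_eq_mul] at h3
            rcases b with _ | _ <;> rcases b' with _ | _ <;> simp [ov, hh] at h3 <;> exact h4 h3
          subst hk
          have h3 := congrArg (· ⬝ᵥ e k') h2
          simp only [smul_dotProduct, smul_eq_mul] at h3
          rcases b with _ | _ <;> rcases b' with _ | _ <;> simp [ov, he] at h3 ⊢ <;> omega)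
    refine ⟨g - (V i.1 ⬝ᵥ g) • e' i, by rw [dotProduct_sub, dotProduct_smul, he']; simp, fun i' hi' => ?_⟩
    have := hg _ (Finset.mem_image.2 ⟨i', Finset.mem_erase.2 ⟨hi', Finset.mem_univ _⟩, rfl⟩)
    rw [sub_dotProduct, smul_dotProduct] at this
    rw [dotProduct_sub, dotProduct_smul]
    rw [smul_eq_mul] at this ⊢
    rwa [mul_comm]
  choose h' hh1 hh2 using hh2
  refine ⟨R, {c // 0 < V c ⬝ᵥ β'}, inferInstance, inferInstance, fun i => V i.1, e', h', β',
    fun i => (∏ j, ow w (i.1 j)) / Λ, fun i => ∑ j, op ph (i.1 j), fun i => fm i.1,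
    fun j α => ∑ i, 2 * √(w i) * Real.cos (2 * π * (ph i + dr (v i) fun l => α (E (j, l)))),
    he', hh1, hh2, fun i => i.2, fun i => div_pos (Finset.prod_pos fun j _ => how0 _) hΛ0, ?_,
    fun j α => hG _, fun S hS => ⟨hfam S hS, fun α => ?_⟩⟩
  · rw [← Finset.sum_fiberwise_of_maps_to (s := univ) (t := (univ : Finset (Finset B)).erase ∅)
      (g := fun i : {c // 0 < V c ⬝ᵥ β'} => fm i.1) (fun i _ => Finset.mem_erase.2
        ⟨(hpos _ i.2).ne_empty, Finset.mem_univ _⟩), Finset.mul_sum,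
      Finset.sum_congr rfl (g := fun _ => 1 / Λ) fun S hS => by
        rw [eq_div_iff hΛ0.ne', mul_comm]
        exact hfam S (Finset.nonempty_iff_ne_empty.2 (Finset.mem_erase.1 hS).1)]
    rw [Finset.sum_const, Finset.card_erase_of_mem (Finset.mem_univ _), Finset.card_univ,
      Fintype.card_finset, nsmul_eq_mul, Nat.cast_sub Nat.one_le_two_pow]
    push_cast; rw [← hΛ]; field_simp
  · have h1 := expand S (fun j o => (√(ow w o) : ℂ) * Complex.exp (Complex.I *
      ((2 * π * (op ph o + dr (ov v o) fun l => α (E (j, l))) : ℝ) : ℂ))) (fun j => by simp [ow, op, ov, dr])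
    have h2 : ∀ j, ∑ p : ι × Bool, (√(ow w (some p)) : ℂ) * Complex.exp (Complex.I *
        ((2 * π * (op ph (some p) + dr (ov v (some p)) fun l => α (E (j, l))) : ℝ) : ℂ)) =
        ((∑ i, 2 * √(w i) * Real.cos (2 * π * (ph i + dr (v i) fun l => α (E (j, l)))) : ℝ) : ℂ) := by
      intro j
      rw [Fintype.sum_prod_type, Complex.ofReal_sum]
      refine Finset.sum_congr rfl fun i _ => ?_
      simp only [Fintype.sum_bool, ow, op, ov, dr_neg]
      push_cast
      rw [Complex.cos]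
      ring_nf
    simp_rw [h2] at h1
    have h3 := congrArg Complex.re h1
    rw [← Complex.ofReal_prod, Complex.ofReal_re, Complex.re_sum] at h3
    rw [← h3]
    have h4 : ∀ c : B → Option (ι × Bool), (∏ j, (√(ow w (c j)) : ℂ) * Complex.exp (Complex.I *
        ((2 * π * (op ph (c j) + dr (ov v (c j)) fun l => α (E (j, l))) : ℝ) : ℂ))).re =
        √(∏ j, ow w (c j)) * Real.cos (2 * π * (∑ j, op ph (c j) + dr (V c) α)) := by
      intro c
      rw [Finset.prod_mul_distrib, ← Complex.exp_sum, ← Finset.mul_sum, ← Complex.ofReal_sum,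
        ← Complex.ofReal_prod, Complex.re_ofReal_mul, mul_comm Complex.I, Complex.exp_ofReal_mul_I_re,
        Real.sqrt_prod _ fun j _ => (how0 _).le, hVr, ← Finset.mul_sum, Finset.sum_add_distrib]
    simp_rw [h4]
    rw [half S hS (fun c => √(∏ j, ow w (c j)) * Real.cos (2 * π * (∑ j, op ph (c j) + dr (V c) α)))
      (fun c => by
        simp only [ow_ng, op_ng, hVng, dr_neg, Finset.sum_neg_distrib]
        rw [← neg_add, mul_neg, Real.cos_neg]), Finset.mul_sum, Finset.mul_sum]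
    refine Finset.sum_congr rfl fun i _ => ?_
    rw [Real.sqrt_div' _ hΛ0.le]
    have := (Real.sqrt_pos.2 hΛ0).ne'
    field_simp

end Vale.Agent.P130
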