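import Vale.Agent.P110.Comb

/-! The system of teeth with the harmonics kept apart. -/

namespace Vale.Agent.P130

open Finset Matrix Real Vale.Agent.P110

set_option maxHeartbeats 1000000 in
theorem teeth2 {r : ℕ} {ι : Type} [Fintype ι] [DecidableEq ι] (v e h : ι → Fin r → ℤ)
    (β : Fin r → ℤ) (w ph : ι → ℝ) (he : ∀ i, v i ⬝ᵥ e i = 1) (hh : ∀ i, v i ⬝ᵥ h i = 0)
    (hh' : ∀ i j, j ≠ i → v j ⬝ᵥ h i ≠ 0) (hβ : ∀ i, 0 < v i ⬝ᵥ β) (hw0 : ∀ i, 0 < w i)
    (hw : 2 * ∑ i, w i = 1) {η : ℝ} (hη0 : 0 < η) (hη2 : η ≤ 1 / 4) :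
    ∃ (Q T : ℕ) (Ts : ℝ) (P : Type) (_ : Fintype P) (seg s L : P → ℕ) (φ : P → ℝ) (har : P → ι),
      0 < Q ∧ 0 < Ts ∧ (T : ℝ) ≤ Ts ∧ (∀ a, seg a < T) ∧ Packed Q s L ∧
      (∀ i, (1 - 2 * η) * (w i * Q) ≤ ∑ a with har a = i, (L a : ℝ) ∧
        ∑ a with har a = i, (L a : ℝ) ≤ w i * Q) ∧
      ∀ τ < T, ∀ (k : ℤ) (γ : ℝ), ∃ α : Fin r → ℝ, ∀ i,
        |∑ a with seg a = τ ∧ har a = i,
          √(L a) * (2 * Real.cos (2 * π * (φ a - k * s a / Q + L a * γ))) -
          √(Q / Ts) * (2 * √(w i) * Real.cos (2 * π * (ph i + dr (v i) α)))| ≤ 2 * η * √(Q / Ts) := by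
  classical
  have hne : Nonempty ι := by
    by_contra hc; rw [not_nonempty_iff] at hc; simp at hw
  set L : ι → ℕ := fun i => (v i ⬝ᵥ β).toNat with hLdef
  have hL : ∀ i, (L i : ℤ) = v i ⬝ᵥ β := fun i => Int.toNat_of_nonneg (hβ i).le
  have hL0 : ∀ i, 0 < L i := fun i => by have := hL i; have := hβ i; omega
  obtain ⟨n, hn0, hdes⟩ := design v e h w L he hh hh' hw0 hw hη0
  obtain ⟨Q', hQ'⟩ : ∃ Q', Q' = n * n := ⟨_, rfl⟩
  rw [← hQ'] at hdes
  have hQ'0 : 0 < Q' := by rw [hQ']; positivity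
  have hQ'r : (0:ℝ) < Q' := by exact_mod_cast hQ'0
  set T1 : ℝ := (Q' : ℝ) ^ r * ∏ i, w i with hT1
  have hT10 : 0 < T1 := mul_pos (by positivity) (Finset.prod_pos fun i _ => hw0 i)
  obtain ⟨R, D, p, hR, hD, hLD, hp0, hpU, hcop, hpp⟩ := arith (fun i => T1 / (Q' * w i))
    (fun i => by have := hw0 i; positivity) L hL0
    (4 + ∑ q : ι × ι, (v q.2 ⬝ᵥ h q.1).natAbs) hη0 hT10
  set Ts : ℝ := T1 * R with hTs
  have hTs0 : 0 < Ts := lt_of_lt_of_le (by positivity) hR
  have hRx : ∀ i, R * (T1 / (Q' * w i)) = Ts / (Q' * w i) := fun i => by rw [hTs]; ring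
  simp only [hRx] at hD hpU
  obtain ⟨Ω, _, om, blk, off, idx, hom, hblk, hoff, hidx, sep1, sep2, sep3, hc1, hc2⟩ :=
    hdes R D Ts (by rw [hTs, hT1]; ring) hR hD
  set Mi : ι → ℕ := fun i => ∏ j ∈ univ.erase i, p j with hMi
  obtain ⟨M, hMdef⟩ : ∃ M, M = ∏ j, p j := ⟨_, rfl⟩
  have hM : ∀ i, p i * Mi i = M := fun i => by
    rw [hMdef]; exact Finset.mul_prod_erase univ p (Finset.mem_univ i)
  have hMi0 : ∀ i, 0 < Mi i := fun i => Finset.prod_pos fun j _ => hp0 j
  have hM0 : 0 < M := by rw [hMdef]; exact Finset.prod_pos fun j _ => hp0 j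
  have hMr : (0:ℝ) < M := by exact_mod_cast hM0
  obtain ⟨a, ha⟩ := crt_vec (fun i => (p i : ℤ)) hpp h
  have hb' : ∀ i, ∃ b : ℤ, v i ⬝ᵥ a = p i * b := fun i => by
    have := ha i (v i); rwa [hh i, sub_zero] at this
  choose b hb using hb'
  have hbc : ∀ i, IsCoprime (Mi i : ℤ) (4 * b i) := by
    intro i
    simp only [hMi]; push_cast
    refine IsCoprime.prod_left fun j hj => IsCoprime.mul_right (hcop j 4 (by norm_num) (by simp)) ?_
    have hji := (Finset.mem_erase.1 hj).1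
    obtain ⟨c, hc⟩ := ha j (v i)
    have h1 := hcop j (v i ⬝ᵥ h j) (hh' j i hji.symm) (by
      have := Finset.single_le_sum (f := fun q : ι × ι => (v q.2 ⬝ᵥ h q.1).natAbs)
        (fun _ _ => Nat.zero_le _) (Finset.mem_univ (j, i))
      exact this.trans (Nat.le_add_left _ _))
    have h2 := h1.add_mul_left_right c
    have e1 : v i ⬝ᵥ h j + p j * c = p i * b i := by rw [← hb i, ← hc]; ring
    rw [e1] at h2
    exact h2.of_mul_right_right
  choose u hu using hom
  set cls : Ω → ι → ℕ := fun s i => idx s i + D i * (off s i % L i) with hcls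
  have hclsp : ∀ s i, cls s i < p i := fun s i => by
    have h1 := Nat.mod_lt (off s i) (hL0 i)
    have h2 := hidx s i
    have h3 : D i * (off s i % L i + 1) ≤ D i * L i := Nat.mul_le_mul_left _ h1
    have h4 := hLD i
    simp only [hcls]; nlinarith
  have ht' : ∀ s : Ω, ∃ t : Fin r → ℤ, ∀ i, ∃ j0 : ℤ, v i ⬝ᵥ t = cls s i - u s i + p i * j0 := by
    intro s
    obtain ⟨t, ht⟩ := crt_vec (fun i => (p i : ℤ)) hpp fun i => ((cls s i : ℤ) - u s i) • e i
    refine ⟨t, fun i => ?_⟩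
    obtain ⟨j0, hj⟩ := ht i (v i)
    rw [dotProduct_smul, he i, smul_eq_mul, mul_one] at hj
    exact ⟨j0, by linarith⟩
  choose t j0 ht using ht'
  choose φG hφG using fun (s : Ω) (i : ι) => gauss (Mi i) (hMi0 i) (b i) (j0 s i) (hbc i)
  set s0 : Ω × (Σ i, Fin (Mi i)) → ℕ := fun x =>
    off x.1 x.2.1 + n * (blk x.1 x.2.1 + n * (cls x.1 x.2.1 + p x.2.1 * x.2.2)) with hs0
  have hz : ∀ (s : Ω) (i : ι) (j : Fin (Mi i)), cls s i + p i * j < M := fun s i j => by
    have h1 : p i * (j + 1) ≤ p i * Mi i := Nat.mul_le_mul_left _ j.2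
    have := hclsp s i; rw [hM] at h1; nlinarith
  have hΩ0 : 0 < Fintype.card Ω := by
    have : (0:ℝ) < Fintype.card Ω := lt_of_lt_of_le (mul_pos (by linarith) hTs0) hc1
    exact_mod_cast this
  have hΩr : (0:ℝ) < Fintype.card Ω := by exact_mod_cast hΩ0
  refine ⟨2 * (Q' * M), Fintype.card Ω, Ts, Ω × (Σ i, Fin (Mi i)), inferInstance,
    fun x => Fintype.equivFin Ω x.1, fun x => 2 * s0 x, fun x => 2 * L x.2.1,
    fun x => ph x.2.1 + φG x.1 x.2.1 x.2.2, fun x => x.2.1, by positivity, hTs0, hc2,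
    fun x => (Fintype.equivFin Ω x.1).2, ⟨fun x => by have := hL0 x.2.1; positivity, ?_, ?_, ?_⟩,
    ?_, ?_⟩
  · rintro ⟨s, i, j⟩
    simp only [hs0]
    have h1 := hoff s i
    have h2 := hblk s i
    have h3 : n * (cls s i + p i * j + 1) ≤ n * M := Nat.mul_le_mul_left _ (hz s i j)
    have h4 : n * (blk s i + n * (cls s i + p i * j) + 1) ≤ n * (n * M) :=
      Nat.mul_le_mul_left _ (by nlinarith)
    rw [hQ']; nlinarith
  · rintro ⟨s, i, j⟩ ⟨s', i', j'⟩ c h1 h2 h3 h4
    simp only [hs0] at h1 h2 h3 h4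
    have h5 := hoff s i
    have h6 := hoff s' i'
    obtain ⟨o, ho1, ho2⟩ : ∃ o, o < L i ∧
      c / 2 = off s i + o + n * (blk s i + n * (cls s i + p i * j)) :=
      ⟨c / 2 - (off s i + n * (blk s i + n * (cls s i + p i * j))), by omega, by omega⟩
    obtain ⟨o', ho1', ho2'⟩ : ∃ o, o < L i' ∧
      c / 2 = off s' i' + o + n * (blk s' i' + n * (cls s' i' + p i' * j')) :=
      ⟨c / 2 - (off s' i' + n * (blk s' i' + n * (cls s' i' + p i' * j'))), by omega, by omega⟩
    obtain ⟨e1, e2⟩ := digits (by omega) (by omega) (ho2.symm.trans ho2')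
    obtain ⟨e3, e4⟩ := digits (hblk s i) (hblk s' i') e2
    obtain rfl := sep1 s s' i i' e3
    obtain ⟨e5, e6⟩ := digits (hclsp s i) (hclsp s' i) e4
    obtain ⟨e7, e8⟩ := digits (hidx s i) (hidx s' i) e5
    have e9 : off s i = off s' i :=
      Nat.ModEq.eq_of_abs_lt (m := L i) e8 (by rw [abs_lt]; constructor <;> omega)
    obtain rfl := sep3 s s' i e3 e9 e7
    obtain rfl : j = j' := Fin.ext e6
    rfl
  · rintro ⟨s, i, j⟩ ⟨s', i', j'⟩ c c' h1 h2 h3 h4 h0
    simp only [hs0] at h1 h2 h3 h4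
    have h5 := hoff s i
    have h6 := hoff s' i'
    obtain ⟨o, ho1, ho2⟩ : ∃ o, o < n ∧
      c / 2 = o + n * (blk s i + n * (cls s i + p i * j)) :=
      ⟨c / 2 - (n * (blk s i + n * (cls s i + p i * j))), by omega, by omega⟩
    obtain ⟨o', ho1', ho2'⟩ : ∃ o, o < n ∧
      c' / 2 = o + n * (blk s' i' + n * (cls s' i' + p i' * j')) :=
      ⟨c' / 2 - (n * (blk s' i' + n * (cls s' i' + p i' * j'))), by omega, by omega⟩
    have h7 : c / 2 + c' / 2 + 1 = Q' * M := by omega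
    obtain ⟨_, e2⟩ := carry (n := n) (a := o + o' + 1) (y := blk s i + n * (cls s i + p i * j) +
      (blk s' i' + n * (cls s' i' + p i' * j'))) (M := n * M) (by omega) (by omega)
      (by rw [ho2, ho2', hQ'] at h7; linarith)
    have := hblk s i
    have := hblk s' i'
    obtain ⟨e3, _⟩ := carry (n := n) (a := blk s i + blk s' i' + 1)
      (y := cls s i + p i * j + (cls s' i' + p i' * j')) (M := M) (by omega) (by omega) (by linarith)
    exact sep2 s s' i i' e3
  · intro i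
    have e0 : ∑ a : Ω × (Σ i, Fin (Mi i)) with a.2.1 = i, ((2 * L a.2.1 : ℕ) : ℝ) =
        Fintype.card Ω * (Mi i * (2 * L i)) := by
      rw [Finset.sum_filter, Fintype.sum_prod_type]
      simp only [Fintype.sum_sigma, Finset.sum_const, Finset.card_univ, Fintype.card_fin,
        nsmul_eq_mul]
      rw [Finset.sum_eq_single i (fun j _ hj => by simp [hj]) (by simp)]
      simp
    rw [e0]
    push_cast
    have h3 : (M : ℝ) = p i * Mi i := by exact_mod_cast (hM i).symm
    have hwi := hw0 i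
    have hMi' : (0:ℝ) < Mi i := by exact_mod_cast hMi0 i
    constructor
    · have h2 := hpU i
      have h4 : (p i : ℝ) * (Q' * w i) ≤ (1 + η) * (L i * Ts) := by
        rw [← le_div_iff₀ (by positivity)]; refine h2.trans (le_of_eq ?_); ring
      have h5 : (1 - η) * ((1 + η) * (L i * Ts)) ≤ L i * Ts := by
        have : 0 ≤ η ^ 2 * (L i * Ts) := by positivity
        linarith
      have h6 := mul_le_mul_of_nonneg_left h4 (by linarith : 0 ≤ 1 - η)
      have h7 := mul_le_mul_of_nonneg_left (h6.trans h5)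
        (mul_nonneg (by linarith) (by positivity) : (0:ℝ) ≤ (1 - η) * (2 * Mi i))
      have h8 := mul_le_mul_of_nonneg_right hc1 (by positivity : (0:ℝ) ≤ Mi i * (2 * L i))
      have h9 : 0 ≤ η ^ 2 * (w i * (2 * (Q' * (p i * Mi i)))) := by positivity
      rw [h3]; linarith
    · have h1 : ((L i * D i : ℕ) : ℝ) ≤ p i := by exact_mod_cast hLD i
      push_cast at h1
      have h2 := (mul_le_mul_of_nonneg_left (hD i) (by positivity : (0:ℝ) ≤ L i)).trans h1
      rw [← mul_div_assoc, div_le_iff₀ (by positivity)] at h2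
      have h4 := mul_le_mul_of_nonneg_right hc2 (by positivity : (0:ℝ) ≤ Mi i * (2 * L i))
      have h5 := mul_le_mul_of_nonneg_left h2 (by positivity : (0:ℝ) ≤ 2 * Mi i)
      rw [h3]; linarith
  · intro τ hτ k γ
    set s := (Fintype.equivFin Ω).symm ⟨τ, hτ⟩ with hs
    set α : Fin r → ℝ := fun l => a l * k ^ 2 / M - k * (om s l + Q' * t s l) / (Q' * M) +
      2 * γ * β l with hα
    have hdr : ∀ i, dr (v i) α = ((v i ⬝ᵥ a : ℤ) : ℝ) * k ^ 2 / M -
        k * (((v i ⬝ᵥ om s : ℤ) : ℝ) + Q' * ((v i ⬝ᵥ t s : ℤ) : ℝ)) / (Q' * M) +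
        2 * γ * ((v i ⬝ᵥ β : ℤ) : ℝ) := by
      intro i
      simp only [dr, dotProduct, hα]; push_cast
      simp only [Finset.mul_sum, Finset.sum_mul, Finset.sum_div, ← Finset.sum_add_distrib,
        ← Finset.sum_sub_distrib]
      exact Finset.sum_congr rfl fun l _ => by ring
    have hsum : ∀ i, ∑ j : Fin (Mi i), √((2 * L i : ℕ) : ℝ) * (2 * Real.cos (2 * π *
        (ph i + φG s i j - k * ((2 * s0 (s, ⟨i, j⟩) : ℕ) : ℝ) / ((2 * (Q' * M) : ℕ) : ℝ) +
          ((2 * L i : ℕ) : ℝ) * γ))) =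
        √((2 * L i : ℕ) : ℝ) * √(Mi i) * (2 * Real.cos (2 * π * (ph i + dr (v i) α))) := by
      intro i
      have hMr' : (M : ℝ) = p i * Mi i := by exact_mod_cast (hM i).symm
      have hMi' : (0:ℝ) < Mi i := by exact_mod_cast hMi0 i
      have hp' : (0:ℝ) < p i := by exact_mod_cast hp0 i
      have hQn : (Q' : ℝ) = n * n := by exact_mod_cast hQ'
      have hn' : (0:ℝ) < n := by exact_mod_cast hn0
      set c0 : ℝ := ph i - k * (off s i + n * blk s i + Q' * cls s i) / (Q' * M) + 2 * L i * γ with hc0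
      have h1 : ∀ j : Fin (Mi i), ph i + φG s i j -
          k * ((2 * s0 (s, ⟨i, j⟩) : ℕ) : ℝ) / ((2 * (Q' * M) : ℕ) : ℝ) + ((2 * L i : ℕ) : ℝ) * γ =
          c0 + (φG s i j - k * (j : ℕ) / Mi i) := by
        intro j
        simp only [hs0, hc0]; push_cast; rw [hMr', hQn]; field_simp; ring
      have h2 : ph i + dr (v i) α = c0 + (b i * k ^ 2 / Mi i - k * j0 s i / Mi i) := by
        have h3 : v i ⬝ᵥ om s = (n * blk s i + off s i : ℕ) + Q' * u s i := by
          rw [← hu s i]; ring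
        rw [hdr, hb, h3, ht, ← hL, hc0, hMr']; push_cast; field_simp; ring
      simp_rw [h1]
      rw [h2, ← Finset.mul_sum, ← Finset.mul_sum, mul_assoc]
      congr 1
      simp_rw [← ee_re]
      rw [← Complex.re_sum]
      simp_rw [ee_add c0]
      rw [← Finset.mul_sum, Fin.sum_univ_eq_sum_range
        (fun j => ee (φG s i j - k * (j : ℕ) / Mi i)), hφG, mul_left_comm, Complex.re_ofReal_mul]
      ring
    refine ⟨α, fun i => ?_⟩
    have hfil : ∑ x : Ω × (Σ i, Fin (Mi i)) with ((Fintype.equivFin Ω x.1 : ℕ) = τ ∧ x.2.1 = i),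
        √((2 * L x.2.1 : ℕ) : ℝ) * (2 * Real.cos (2 * π * (ph x.2.1 + φG x.1 x.2.1 x.2.2 -
          k * ((2 * s0 x : ℕ) : ℝ) / ((2 * (Q' * M) : ℕ) : ℝ) + ((2 * L x.2.1 : ℕ) : ℝ) * γ))) =
        √((2 * L i : ℕ) : ℝ) * √(Mi i) * (2 * Real.cos (2 * π * (ph i + dr (v i) α))) := by
      rw [Finset.sum_filter, Fintype.sum_prod_type, Finset.sum_eq_single s]
      · have : ((Fintype.equivFin Ω s : ℕ) = τ) := by simp [hs]
        simp only [this, true_and]
        rw [Fintype.sum_sigma, Finset.sum_eq_single i (fun j _ hj => by simp [hj]) (by simp)]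
        simp only [if_true]
        exact hsum i
      · intro s' _ hs'
        refine Finset.sum_eq_zero fun x _ => if_neg fun h0 => hs' ?_
        rw [hs, Equiv.eq_symm_apply]; exact Fin.ext h0.1
      · simp
    rw [hfil]
    have eA : (((2 * (Q' * M) : ℕ) : ℝ) / Ts) = 2 * (Q' * M) / Ts := by push_cast; ring
    rw [eA]
    set A : ℝ := √(2 * (Q' * M) / Ts) with hA
    have hA0 : 0 ≤ A := Real.sqrt_nonneg _
    have hamp : ∀ i, |√((2 * L i : ℕ) : ℝ) * √(Mi i) - A * √(w i)| ≤ η * A := by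
      intro i
      have hwi := hw0 i
      have hw1 : w i ≤ 1 := by
        have := Finset.single_le_sum (f := w) (fun j _ => (hw0 j).le) (Finset.mem_univ i)
        linarith
      have hMr' : (M : ℝ) = p i * Mi i := by exact_mod_cast (hM i).symm
      have hMi' : (0:ℝ) < Mi i := by exact_mod_cast hMi0 i
      have hp' : (0:ℝ) < p i := by exact_mod_cast hp0 i
      set z : ℝ := L i * (Ts / (Q' * w i)) / p i with hzdef
      have hz1 : z ≤ 1 := by
        rw [hzdef, div_le_one hp']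
        have h1 : ((L i * D i : ℕ) : ℝ) ≤ p i := by exact_mod_cast hLD i
        push_cast at h1
        exact (mul_le_mul_of_nonneg_left (hD i) (by positivity)).trans h1
      have hz2 : 1 ≤ (1 + η) * z := by
        rw [hzdef, ← mul_div_assoc, le_div_iff₀ hp', one_mul]; exact hpU i
      have hz0 : 0 ≤ z := by positivity
      have e1 : √((2 * L i : ℕ) : ℝ) * √(Mi i) = A * √(w i) * √z := by
        rw [hA, ← Real.sqrt_mul (by positivity), ← Real.sqrt_mul (by positivity),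
          ← Real.sqrt_mul (by positivity)]
        congr 1; rw [hzdef, hMr']; push_cast; field_simp
      have h3 : √z ≤ 1 := Real.sqrt_le_one.2 hz1
      have h4 : z ≤ √z := Real.le_sqrt_of_sq_le (by nlinarith)
      have h5 : √(w i) ≤ 1 := Real.sqrt_le_one.2 hw1
      have h6 : 1 - √z ≤ η := by nlinarith
      have e2 : A * √(w i) * √z - A * √(w i) = -(A * (√(w i) * (1 - √z))) := by ring
      rw [e1, e2, abs_neg, abs_of_nonneg (by have : 0 ≤ 1 - √z := by linarith
                                             positivity), mul_comm η]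
      refine mul_le_mul_of_nonneg_left ?_ hA0
      calc _ ≤ 1 * η := mul_le_mul h5 h6 (by linarith) zero_le_one
        _ = η := one_mul _
    have e3 : √((2 * L i : ℕ) : ℝ) * √(Mi i) * (2 * Real.cos (2 * π * (ph i + dr (v i) α))) -
        A * (2 * √(w i) * Real.cos (2 * π * (ph i + dr (v i) α))) =
        (√((2 * L i : ℕ) : ℝ) * √(Mi i) - A * √(w i)) *
          (2 * Real.cos (2 * π * (ph i + dr (v i) α))) := by ring
    rw [e3, abs_mul]
    calc _ ≤ η * A * 2 := by
          refine mul_le_mul (hamp i) ?_ (abs_nonneg _) (by positivity)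
          rw [abs_mul, abs_two]; linarith [Real.abs_cos_le_one (2 * π * (ph i + dr (v i) α))]
      _ = _ := by ring

end Vale.Agent.P130
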