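import Vale.Agent.P130.Tooth
import Vale.Agent.P130.Teeth
import Vale.Agent.P130.Prod

/-! Sign sequences whose products have disjoint flat spectra. -/

namespace Vale.Agent.P130

open Real Finset MeasureTheory intervalIntegral Vale.Agent.P110

lemma sum_pb {P M : Type*} [Fintype P] [AddCommMonoid M] (q : P → Prop) [DecidablePred q]
    (f : P × Bool → M) : ∑ p with q p.1, f p = ∑ a with q a, (f (a, true) + f (a, false)) := by
  rw [Finset.sum_filter, Finset.sum_filter, Fintype.sum_prod_type]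
  refine Finset.sum_congr rfl fun a _ => ?_
  rw [Fintype.sum_bool]; split_ifs <;> simp

lemma sum_fib {P ι B M : Type*} [Fintype P] [Fintype ι] [DecidableEq ι] [DecidableEq B]
    [AddCommMonoid M] (har : P → ι) (fam : ι → B) (S : B) (f : P → M) :
    ∑ a with fam (har a) = S, f a = ∑ i with fam i = S, ∑ a with har a = i, f a := by
  rw [← Finset.sum_fiberwise_of_maps_to (s := univ.filter fun a => fam (har a) = S)
    (t := univ.filter fun i => fam i = S) (g := har) (by simp)]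
  refine Finset.sum_congr rfl fun i hi => Finset.sum_congr ?_ fun _ _ => rfl
  ext a; simp only [Finset.mem_filter, Finset.mem_univ, true_and] at hi ⊢
  exact ⟨fun h => h.2, fun h => ⟨h ▸ hi, h⟩⟩

lemma packed_disj {P : Type} {Q : ℕ} (hQ : 0 < Q) {s L : P → ℕ} (hP : Packed Q s L)
    (V : P → ℝ → ℂ) (hV : ∀ a t, V a t = 0 ∨ (‖V a t‖ = 1 ∧ s a / Q < t ∧ t < s a / Q + L a / Q))
    (t : ℝ) (p p' : P × Bool) (hp : p ≠ p') :
    (if p.2 then (starRingEnd ℂ) (V p.1 (1 - t)) else V p.1 t) = 0 ∨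
      (if p'.2 then (starRingEnd ℂ) (V p'.1 (1 - t)) else V p'.1 t) = 0 := by
  have hQ' : (0:ℝ) < Q := by exact_mod_cast hQ
  have c1 : ∀ a t, V a t ≠ 0 → s a ≤ ⌊t * Q⌋₊ ∧ ⌊t * Q⌋₊ < s a + L a := by
    intro a t h
    obtain ⟨-, h1, h2⟩ := (hV a t).resolve_left h
    rw [div_lt_iff₀ hQ'] at h1
    rw [← add_div, lt_div_iff₀ hQ'] at h2
    have h0 : (0:ℝ) ≤ s a := by positivity
    exact ⟨Nat.le_floor h1.le, (Nat.floor_lt (by linarith)).2 (by push_cast; exact h2)⟩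
  have c2 : ∀ a a' t, V a t ≠ 0 → V a' (1 - t) ≠ 0 → False := by
    intro a a' t h h'
    obtain ⟨h3, h4⟩ := c1 a t h
    obtain ⟨-, h5, -⟩ := (hV a t).resolve_left h
    obtain ⟨-, h1, h2⟩ := (hV a' (1 - t)).resolve_left h'
    rw [div_lt_iff₀ hQ'] at h1 h5
    rw [← add_div, lt_div_iff₀ hQ'] at h2
    have h0 : (0:ℝ) ≤ s a := by positivity
    have h6 := Nat.floor_le (a := t * Q) (by linarith)
    have h7 := Nat.lt_floor_add_one (t * Q)
    have h8 : s a' + ⌊t * Q⌋₊ < Q := by exact_mod_cast (by linarith : (s a' + ⌊t * Q⌋₊ : ℝ) < Q)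
    have h9 : Q < s a' + L a' + ⌊t * Q⌋₊ + 1 := by
      exact_mod_cast (by linarith : (Q:ℝ) < s a' + L a' + ⌊t * Q⌋₊ + 1)
    exact hP.t3 a a' _ (Q - 1 - ⌊t * Q⌋₊) h3 h4 (by omega) (by omega) (by omega)
  by_contra hc
  push Not at hc
  obtain ⟨a, b⟩ := p
  obtain ⟨a', b'⟩ := p'
  cases b <;> cases b' <;> simp only [if_true, Bool.false_eq_true, if_false, ne_eq,
    map_eq_zero] at hc
  · exact hp (by rw [hP.t2 a a' _ (c1 _ _ hc.1).1 (c1 _ _ hc.1).2 (c1 _ _ hc.2).1 (c1 _ _ hc.2).2])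
  · exact c2 _ _ _ hc.1 hc.2
  · exact c2 _ _ _ hc.2 hc.1
  · exact hp (by rw [hP.t2 a a' _ (c1 _ _ hc.1).1 (c1 _ _ hc.1).2 (c1 _ _ hc.2).1 (c1 _ _ hc.2).2])

set_option maxHeartbeats 1000000 in
theorem colour0 (B : Type) [Fintype B] [DecidableEq B] [Nonempty B] {ρ : ℝ} (hρ : 0 < ρ)
    (hρ1 : ρ ≤ 1) : ∃ N0 : ℝ, ∀ N : ℕ, N0 ≤ N → ∃ (F : Finset B → ℝ → ℂ) (y : ℕ → Finset B → ℝ)
      (a : ℕ → ℝ) (G : ℕ → B → ℝ), (∀ S, BM (F S)) ∧ (∀ S t, F S t = 0 ∨ ‖F S t‖ = 1) ∧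
      (∀ S S' t, S ≠ S' → F S t = 0 ∨ F S' t = 0) ∧ (∀ k, 0 ≤ a k ∧ a k ≤ 1 + ρ) ∧
      (∀ k j, |G k j| ≤ 1 + ρ) ∧ ∀ S : Finset B, S.Nonempty →
        1 - ρ ≤ (2 ^ Fintype.card B - 1) * I2 (F S) ∧ (2 ^ Fintype.card B - 1) * I2 (F S) ≤ 1 ∧
        (1 - ρ) * N ≤ ∑ k ∈ range N, y k S ^ 2 ∧
        ∀ k : ℕ, √((2 ^ Fintype.card B - 1) * N) * (fc (F S) k).re = y k S ∧
          |y k S - a k * ∏ j ∈ S, G k j| ≤ ρ := by
  classical
  obtain ⟨r, ι, _, _, v, e, h, β, w, ph, fam, G, he, hh, hh', hβ, hw0, hw, hG, hS⟩ := torus_prod B hρ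
  obtain ⟨Λ, hΛ⟩ : ∃ Λ : ℝ, Λ = 2 ^ Fintype.card B - 1 := ⟨_, rfl⟩
  rw [← hΛ] at hS ⊢
  have hΛ1 : 1 ≤ Λ := by
    have : (2:ℝ) ^ 1 ≤ 2 ^ Fintype.card B := pow_le_pow_right₀ (by norm_num) Fintype.card_pos
    linarith
  have hsΛ : √Λ ≤ Λ := by rw [Real.sqrt_le_left (by linarith)]; nlinarith
  obtain ⟨n, hn⟩ : ∃ n : ℝ, n = Fintype.card ι + 1 := ⟨_, rfl⟩
  have hn1 : 1 ≤ n := by rw [hn]; linarith [(Nat.cast_nonneg (Fintype.card ι) : (0:ℝ) ≤ _)]
  obtain ⟨η, hη⟩ : ∃ η : ℝ, η = ρ / (8 * Λ * n) := ⟨_, rfl⟩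
  have hη0 : 0 < η := by rw [hη]; positivity
  have hη1 : 8 * Λ * n * η = ρ := by rw [hη]; field_simp
  have hη2 : 8 * η ≤ ρ := by
    have : 1 ≤ Λ * n := by nlinarith
    nlinarith
  obtain ⟨Q, T, Ts, P, _, seg, s, L, φ, har, hQ, hTs, hT, hseg, hP, hcov, hT2⟩ :=
    teeth2 v e h β w ph he hh hh' hβ hw0 hw hη0 (by linarith)
  have hQ' : (0:ℝ) < Q := by exact_mod_cast hQ
  obtain ⟨m, hm⟩ : ∃ m : ℝ, m = Fintype.card P + 1 := ⟨_, rfl⟩
  have hm1 : 1 ≤ m := by rw [hm]; linarith [(Nat.cast_nonneg (Fintype.card P) : (0:ℝ) ≤ _)]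
  obtain ⟨δ, hδ⟩ : ∃ δ : ℝ, δ = (1 - 2 * η) / Ts := ⟨_, rfl⟩
  have hδ0 : 0 < δ := by rw [hδ]; exact div_pos (by linarith) hTs
  have hδ1 : δ * Ts = 1 - 2 * η := by rw [hδ]; field_simp
  obtain ⟨ζ, hζ⟩ : ∃ ζ : ℝ, ζ = ρ / (4 * Λ * m * √(1 / δ)) := ⟨_, rfl⟩
  have hζ0 : 0 < ζ := by rw [hζ]; positivity
  obtain ⟨Y, Z, H, ϑ, l0, Sw⟩ := exists_swp hη0 hζ0
  choose amp yy ha0 ha1 ha2 ha3 using Sw.main
  have hY : Continuous Y := continuous_iff_continuousAt.2 fun u => (Sw.hY u).continuousAt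
  have hl0 := Sw.l0pos
  refine ⟨2 / η + l0 * Q / δ + 128 * Λ * m ^ 2 / (η * ρ), fun N hN => ?_⟩
  have p1 : 0 < 2 / η := by positivity
  have p2 : 0 < l0 * Q / δ := by positivity
  have p3 : 0 < 128 * Λ * m ^ 2 / (η * ρ) := by positivity
  have hN0 : (0:ℝ) < N := by linarith
  have hN1 : 2 ≤ η * N := by
    have : 2 / η ≤ N := by linarith
    rw [div_le_iff₀ hη0] at this; linarith
  obtain ⟨ℓ, hℓ⟩ : ∃ ℓ : P → ℝ, ∀ a, ℓ a = L a / Q := ⟨_, fun _ => rfl⟩
  have hℓ1 : ∀ a, 1 / Q ≤ ℓ a := fun a => by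
    rw [hℓ]; exact div_le_div_of_nonneg_right (by exact_mod_cast hP.Lpos a) hQ'.le
  have hℓ0 : ∀ a, 0 < ℓ a := fun a => lt_of_lt_of_le (by positivity) (hℓ1 a)
  have hℓ2 : ∀ a, s a / Q + ℓ a ≤ 1 := fun a => by
    rw [hℓ, ← add_div, div_le_one hQ']; exact_mod_cast hP.le a
  have hs0 : ∀ a, (0:ℝ) ≤ s a / Q := fun a => by positivity
  have hN2 : ∀ a, l0 ≤ δ * N * ℓ a := fun a => by
    have h1 : l0 * Q / δ ≤ N := by linarith
    rw [div_le_iff₀ hδ0] at h1
    have h2 : l0 ≤ δ * N * (1 / Q) := by rw [mul_one_div, le_div_iff₀ hQ']; linarith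
    exact h2.trans (mul_le_mul_of_nonneg_left (hℓ1 a) (by positivity))
  set V : P → ℝ → ℂ := fun a => chirp Y (s a / Q) (ℓ a) (φ a - ϑ) (η * N + seg a * δ * N) (δ * N)
    with hV
  set W : P × Bool → ℝ → ℂ := fun p t => if p.2 then (starRingEnd ℂ) (V p.1 (1 - t)) else V p.1 t
    with hW
  have hVb : ∀ a, BM (V a) := fun a => chirp_BM hY _ _ _ _ _
  have hWb : ∀ p, BM (W p) := by
    rintro ⟨a, b⟩
    cases b
    · simpa [hW] using hVb a
    · simpa [hW] using ((hVb a).comp (g := fun t => 1 - t) (by fun_prop)).conj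
  have hVn : ∀ a t, V a t = 0 ∨ (‖V a t‖ = 1 ∧ s a / Q < t ∧ t < s a / Q + L a / Q) := fun a t => by
    rw [← hℓ]; exact chirp_norm _ _ _ _ _ _ _
  have hWd : ∀ t p p', p ≠ p' → W p t = 0 ∨ W p' t = 0 := packed_disj hQ hP V hVn
  have hWn : ∀ t p, W p t = 0 ∨ ‖W p t‖ = 1 := by
    rintro t ⟨a, b⟩
    cases b
    · exact (hVn a t).imp (by simp [hW]) fun h => by simpa [hW] using h.1
    · exact (hVn a (1 - t)).imp (by simp [hW]) fun h => by simpa [hW] using h.1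
  set F : Finset B → ℝ → ℂ := fun S t => ∑ p with fam (har p.1) = S, W p t with hF
  have hFb : ∀ S, BM (F S) := fun S => BM.sum _ fun p _ => hWb p
  set X : ℤ → ℝ := fun k => (k - η * N) / (δ * N) with hX
  have hfV : ∀ a (k : ℤ), fc (V a) k =
      ee (φ a - ϑ - k * (s a / Q)) * (ℓ a * JJ Y (δ * N * ℓ a) (X k - seg a)) := by
    intro a k
    simp only [hV]
    rw [chirp_fc Y _ _ (by positivity) (hs0 a) (hℓ0 a) (hℓ2 a)]
    congr 3; simp only [hX]; field_simp; ring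
  have hfF : ∀ S (k : ℤ), fc (F S) k =
      ((∑ a with fam (har a) = S, 2 * (fc (V a) k).re : ℝ) : ℂ) := by
    intro S k
    simp only [hF]
    rw [fc_sum _ fun p _ => hWb p, sum_pb (fun a => fam (har a) = S), Complex.ofReal_sum]
    refine Finset.sum_congr rfl fun a _ => ?_
    simp only [hW, if_true, Bool.false_eq_true, if_false]
    rw [fc_refl, add_comm, Complex.add_conj]
  have hI : ∀ S, I2 (F S) = ∑ i with fam i = S, 2 * (∑ a with har a = i, (L a : ℝ)) / Q := by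
    intro S
    simp only [hF]
    rw [I2_disj W hWb hWd, sum_pb (fun a => fam (har a) = S), sum_fib]
    refine Finset.sum_congr rfl fun i _ => ?_
    rw [Finset.mul_sum, Finset.sum_div]
    refine Finset.sum_congr rfl fun a _ => ?_
    simp only [hW, if_true, Bool.false_eq_true, if_false]
    rw [I2_refl]
    simp only [hV]
    rw [chirp_I2 Y _ _ _ (hs0 a) (hℓ0 a) (hℓ2 a), hℓ]; ring
  have hI1 : ∀ S : Finset B, S.Nonempty → 1 - 2 * η ≤ Λ * I2 (F S) ∧ Λ * I2 (F S) ≤ 1 := by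
    intro S hS'
    have h1 := (hS S hS').1
    have h2 : (1 - 2 * η) * (2 * ∑ i with fam i = S, w i) ≤ I2 (F S) := by
      rw [hI, Finset.mul_sum, Finset.mul_sum]
      refine Finset.sum_le_sum fun i _ => ?_
      rw [le_div_iff₀ hQ']; linarith [(hcov i).1]
    have h3 : I2 (F S) ≤ 2 * ∑ i with fam i = S, w i := by
      rw [hI, Finset.mul_sum]
      refine Finset.sum_le_sum fun i _ => ?_
      rw [div_le_iff₀ hQ']; linarith [(hcov i).2]
    have h4 := mul_le_mul_of_nonneg_left h2 (by linarith : 0 ≤ Λ)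
    have h5 := mul_le_mul_of_nonneg_left h3 (by linarith : 0 ≤ Λ)
    constructor <;> nlinarith
  have far : ∀ S (k : ℤ) (d : ℝ), 0 < d → (k + d ≤ η * N ∨ (1 - η) * N + d ≤ k) →
      ‖fc (F S) k‖ ≤ 4 * m / d := by
    intro S k d hd hk
    rw [hfF, Complex.norm_real, Real.norm_eq_abs]
    refine (Finset.abs_sum_le_sum_abs _ _).trans ((Finset.sum_le_sum (g := fun _ => 4 / d)
      fun a _ => ?_).trans ?_)
    · have h1 := Sw.far (δ * N * ℓ a) (X k - seg a) (d / (δ * N)) (by have := hℓ0 a; positivity)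
        (by positivity) (hk.imp (fun h => ?_) fun h => ?_)
      · rw [abs_mul, abs_two]
        have h2 := Complex.abs_re_le_norm (fc (V a) k)
        rw [hfV, norm_mul, norm_ee, one_mul, norm_mul, Complex.norm_real, Real.norm_eq_abs,
          abs_of_pos (hℓ0 a), ← hfV] at h2
        have h3 := mul_le_mul_of_nonneg_left h1 (hℓ0 a).le
        have h4 : ℓ a * (2 / (δ * N * ℓ a * (d / (δ * N)))) = 2 / d := by
          have := hℓ0 a; field_simp
        have h5 : 4 / d = 2 * (2 / d) := by ring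
        unfold JJ at h2
        linarith
      · have h2 : X k ≤ -(d / (δ * N)) := by
          simp only [hX]; rw [← neg_div]; exact div_le_div_of_nonneg_right (by linarith) (by positivity)
        have : (0:ℝ) ≤ seg a := by positivity
        linarith
      · have h2 : Ts + d / (δ * N) ≤ X k := by
          simp only [hX]; rw [le_div_iff₀ (by positivity), add_mul, div_mul_cancel₀ _ (by positivity)]
          have : Ts * (δ * N) = (1 - 2 * η) * N := by rw [← hδ1]; ring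
          linarith
        have h3 : (seg a + 1 : ℝ) ≤ T := by exact_mod_cast hseg a
        linarith
    · rw [Finset.sum_const, nsmul_eq_mul]
      have h1 : ((univ.filter fun a => fam (har a) = S).card : ℝ) ≤ m := by
        have : ((univ.filter fun a => fam (har a) = S).card : ℝ) ≤ Fintype.card P := by
          exact_mod_cast Finset.card_le_univ _
        linarith
      exact (mul_le_mul_of_nonneg_right h1 (by positivity)).trans (le_of_eq (by ring))
  have key : ∀ k : ℤ, ∃ (a : ℝ) (α : Fin r → ℝ), 0 ≤ a ∧ a ≤ 1 + η ∧ ∀ i,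
      |∑ b with har b = i, amp (X k - seg b) * (√(L b) * (2 * Real.cos (2 * π *
        (φ b - k * s b / Q + L b * (δ * N / Q * yy (X k - seg b)))))) -
        a * (√(Q / Ts) * (2 * √(w i) * Real.cos (2 * π * (ph i + dr (v i) α))))| ≤
        a * (2 * η * √(Q / Ts)) := by
    intro k
    have h1 : ∀ b, amp (X k - seg b) ≠ 0 → seg b = ⌊X k⌋₊ := fun b hb => by
      obtain ⟨h3, h4⟩ := ha2 _ hb
      have : (0:ℝ) ≤ seg b := by positivity
      exact ((Nat.floor_eq_iff (by linarith)).2 ⟨by linarith, by linarith⟩).symm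
    by_cases hτ : ⌊X k⌋₊ < T
    · obtain ⟨α, hα⟩ := hT2 _ hτ k (δ * N / Q * yy (X k - ⌊X k⌋₊))
      refine ⟨amp (X k - ⌊X k⌋₊), α, ha0 _, ha1 _, fun i => ?_⟩
      rw [← Finset.sum_filter_of_ne (p := fun b => seg b = ⌊X k⌋₊) fun b _ hb =>
        h1 b (left_ne_zero_of_mul hb), Finset.filter_filter]
      rw [Finset.sum_congr (s₂ := univ.filter fun b => seg b = ⌊X k⌋₊ ∧ har b = i)
        (g := fun b => amp (X k - ⌊X k⌋₊) * (√(L b) * (2 * Real.cos (2 * π *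
        (φ b - k * s b / Q + L b * (δ * N / Q * yy (X k - ⌊X k⌋₊))))))) (by simp_rw [and_comm])
        fun b hb => by rw [(Finset.mem_filter.1 hb).2.1], ← Finset.mul_sum, ← mul_sub, abs_mul,
        abs_of_nonneg (ha0 _)]
      exact mul_le_mul_of_nonneg_left (hα i) (ha0 _)
    · refine ⟨0, 0, le_rfl, by linarith, fun i => ?_⟩
      rw [Finset.sum_eq_zero fun b _ => by
        rw [not_not.1 fun hb => hτ (h1 b hb ▸ hseg b), zero_mul]]
      simp
  choose a α ka0 ka1 ka2 using key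
  obtain ⟨κ, hκ⟩ : ∃ κ : ℝ, κ = √(1 / (Q * δ)) := ⟨_, rfl⟩
  have hκ0 : 0 ≤ κ := by rw [hκ]; positivity
  have hκ1 : ∀ b, √(ℓ b / δ) = κ * √(L b) := fun b => by
    rw [hκ, ← Real.sqrt_mul (by positivity), hℓ]; congr 1; field_simp
  have hκ2 : κ * √(Q / Ts) ≤ 1 + 2 * η := by
    rw [hκ, ← Real.sqrt_mul (by positivity), Real.sqrt_le_left (by positivity)]
    have : 1 / (Q * δ) * (Q / Ts) = 1 / (δ * Ts) := by field_simp
    rw [this, hδ1, div_le_iff₀ (by linarith)]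
    have : η * η ≤ η * (1 / 8) := mul_le_mul_of_nonneg_left (by linarith) hη0.le
    nlinarith
  have hκ3 : ∀ k, 0 ≤ a k * (κ * √(Q / Ts)) ∧ a k * (κ * √(Q / Ts)) ≤ 1 + ρ := fun k =>
    ⟨mul_nonneg (ka0 k) (by positivity),
      (mul_le_mul (ka1 k) hκ2 (by positivity) (by linarith)).trans (by nlinarith)⟩
  refine ⟨F, fun k S => √(Λ * N) * (fc (F S) k).re, fun k => a k * (κ * √(Q / Ts)),
    fun k j => G j (α k), hFb, fun S t => disj_norm _ (hWd t) (hWn t) _,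
    fun S S' t hSS => disj_disj _ (hWd t) (Finset.disjoint_filter.2 fun p _ h h' =>
      hSS (h.symm.trans h')), fun k => hκ3 k, fun k j => hG j _, fun S' hS' =>
      ⟨by linarith [(hI1 S' hS').1], (hI1 S' hS').2, ?_, fun k => ⟨rfl, ?_⟩⟩⟩
  · have h1 := inband (hFb S') N (C := 4 * m) hN1
      (fun i => far S' _ _ (by positivity) (Or.inr (by push_cast; linarith)))
      (fun i => far S' _ _ (by positivity) (Or.inl (by push_cast; linarith)))
    have h2 : ∑ k ∈ range N, (√(Λ * N) * (fc (F S') k).re) ^ 2 =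
        Λ * N * ∑ k ∈ range N, ‖fc (F S') (k : ℤ)‖ ^ 2 := by
      rw [Finset.mul_sum]
      refine Finset.sum_congr rfl fun k _ => ?_
      have := hfF S' k
      rw [mul_pow, Real.sq_sqrt (by positivity), this]
      rw [Int.cast_natCast] at this
      rw [this, Complex.norm_real, Real.norm_eq_abs, sq_abs, Complex.ofReal_re, Int.cast_natCast]
    have h3 : Λ * N * (4 * (4 * m) ^ 2 / (η * N)) ≤ ρ / 2 * N := by
      have h4 : 128 * Λ * m ^ 2 / (η * ρ) ≤ N := by linarith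
      rw [div_le_iff₀ (by positivity)] at h4
      have : Λ * N * (4 * (4 * m) ^ 2 / (η * N)) = 64 * Λ * m ^ 2 / η := by field_simp; ring
      rw [this, div_le_iff₀ hη0]; linarith
    have h5 := mul_le_mul_of_nonneg_left h1 (by positivity : 0 ≤ Λ * N)
    have h6 := mul_le_mul_of_nonneg_right (hI1 S' hS').1 hN0.le
    have h7 := mul_le_mul_of_nonneg_right hη2 hN0.le
    rw [h2]; linarith
  have h1 := hfF S' k
  rw [Int.cast_natCast] at h1
  have h2 : |√N * (fc (F S') k).re - κ * ∑ b with fam (har b) = S', amp (X k - seg b) * (√(L b) *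
      (2 * Real.cos (2 * π * (φ b - (k : ℤ) * s b / Q +
        L b * (δ * N / Q * yy (X k - seg b))))))| ≤ m * (2 * √(1 / δ) * ζ) := by
    rw [h1, Complex.ofReal_re, Finset.mul_sum, Finset.mul_sum, ← Finset.sum_sub_distrib]
    refine (Finset.abs_sum_le_sum_abs _ _).trans ((Finset.sum_le_sum
      (g := fun _ => 2 * √(1 / δ) * ζ) fun b _ => ?_).trans ?_)
    · have h3 := term_est (c := φ b - ϑ - (k : ℤ) * (s b / Q)) (ph := 0) (E := 0) (x := X k - seg b)
        (I := ℓ b * JJ Y (δ * N * ℓ b) (X k - seg b)) hN0 (hℓ0 b) hδ0 (by simp) (ha3 _ _ (hN2 b))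
      rw [← hfV, Int.cast_natCast] at h3
      have h4 : √(ℓ b / δ) ≤ √(1 / δ) := Real.sqrt_le_sqrt
        (div_le_div_of_nonneg_right (by linarith [hℓ2 b, hs0 b]) hδ0.le)
      have h5 := mul_le_mul_of_nonneg_right h4 hζ0.le
      refine le_trans (le_of_eq ?_) (h3.trans (by linarith))
      rw [hκ1, hℓ b]
      congr 2
      have : φ b - ϑ - k * (s b / Q) + 0 + ϑ + δ * N * (L b / Q) * yy (X k - seg b) =
        φ b - (k : ℤ) * s b / Q + L b * (δ * N / Q * yy (X k - seg b)) := by push_cast; ring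
      rw [this]; ring
    · rw [Finset.sum_const, nsmul_eq_mul]
      have : ((univ.filter fun a => fam (har a) = S').card : ℝ) ≤ Fintype.card P := by
        exact_mod_cast Finset.card_le_univ _
      exact mul_le_mul_of_nonneg_right (by linarith) (by positivity)
  have h3 : |∑ b with fam (har b) = S', amp (X k - seg b) * (√(L b) *
      (2 * Real.cos (2 * π * (φ b - (k : ℤ) * s b / Q + L b * (δ * N / Q * yy (X k - seg b)))))) -
      a k * √(Q / Ts) * ∑ i with fam i = S', 2 * √(w i) * Real.cos (2 * π * (ph i + dr (v i) (α k)))|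
      ≤ n * (a k * (2 * η * √(Q / Ts))) := by
    rw [sum_fib, Finset.mul_sum, ← Finset.sum_sub_distrib]
    refine (Finset.abs_sum_le_sum_abs _ _).trans ((Finset.sum_le_sum
      (g := fun _ => a k * (2 * η * √(Q / Ts))) fun i _ => ?_).trans ?_)
    · rw [mul_assoc]; exact ka2 k i
    · rw [Finset.sum_const, nsmul_eq_mul]
      have : ((univ.filter fun a => fam a = S').card : ℝ) ≤ Fintype.card ι := by
        exact_mod_cast Finset.card_le_univ _
      exact mul_le_mul_of_nonneg_right (by linarith) (mul_nonneg (ka0 k) (by positivity))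
  rw [← (hS S' hS').2 (α k), Real.sqrt_mul (by linarith)]
  generalize ∑ b with fam (har b) = S', amp (X k - seg b) * (√(L b) *
      (2 * Real.cos (2 * π * (φ b - (k : ℤ) * s b / Q + L b * (δ * N / Q * yy (X k - seg b)))))) = A
      at h2 h3
  generalize ∑ i with fam i = S', 2 * √(w i) * Real.cos (2 * π * (ph i + dr (v i) (α k))) = C at h3
  have e1 : √Λ * √N * (fc (F S') k).re - a k * (κ * √(Q / Ts)) * (√Λ * C) =
      √Λ * ((√N * (fc (F S') k).re - κ * A) + κ * (A - a k * √(Q / Ts) * C)) := by ring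
  rw [e1, abs_mul, abs_of_nonneg (Real.sqrt_nonneg _)]
  have h4 := abs_add_le (√N * (fc (F S') k).re - κ * A) (κ * (A - a k * √(Q / Ts) * C))
  rw [abs_mul, abs_of_nonneg hκ0] at h4
  have h5 := mul_le_mul_of_nonneg_left h3 hκ0
  have h6 : κ * (n * (a k * (2 * η * √(Q / Ts)))) ≤ 4 * n * η := by
    have := mul_le_mul_of_nonneg_left (hκ3 k).2 (by positivity : 0 ≤ 2 * n * η)
    have := mul_le_mul_of_nonneg_left hρ1 (by positivity : 0 ≤ 2 * n * η)
    linarith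
  have h7 : Λ * (m * (2 * √(1 / δ) * ζ)) = ρ / 2 := by rw [hζ]; field_simp; ring
  refine (mul_le_mul hsΛ (h4.trans (add_le_add h2 (h5.trans h6))) (abs_nonneg _)
    (by linarith)).trans ?_
  linarith

theorem colour (B : Type) [Fintype B] [DecidableEq B] [Nonempty B] {δ : ℝ} (hδ : 0 < δ) :
    ∃ N0 : ℕ, ∀ N : ℕ, N0 ≤ N → ∃ (ε : ℕ → B → ℝ) (F : Finset B → ℝ → ℂ),
      (∀ k j, ε k j = 1 ∨ ε k j = -1) ∧ (∀ S, BM (F S)) ∧ (∀ S t, F S t = 0 ∨ ‖F S t‖ = 1) ∧
      (∀ S S' t, S ≠ S' → F S t = 0 ∨ F S' t = 0) ∧ ∀ S : Finset B, S.Nonempty →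
        1 - δ ≤ (2 ^ Fintype.card B - 1) * I2 (F S) ∧
        I2 (fun t => (∑ k ∈ range N, ((∏ j ∈ S, ε k j) / √N : ℝ) * ee (k * t)) -
          (√(2 ^ Fintype.card B - 1) : ℝ) * F S t) ≤ δ := by
  obtain ⟨b, hb⟩ : ∃ b : ℝ, b = Fintype.card B := ⟨_, rfl⟩
  have hb0 : 0 ≤ b := by rw [hb]; positivity
  obtain ⟨ρ, hρ⟩ : ∃ ρ, ρ = min 1 (δ / (100 * b + 2)) := ⟨_, rfl⟩
  have hρ0 : 0 < ρ := by rw [hρ]; exact lt_min one_pos (by positivity)
  have hρ1 : ρ ≤ 1 := by rw [hρ]; exact min_le_left _ _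
  have hρ2 : ρ * (100 * b + 2) ≤ δ := by
    rw [← le_div_iff₀ (by positivity), hρ]; exact min_le_right _ _
  have hρ3 : ρ ≤ δ := by nlinarith
  obtain ⟨N0, h⟩ := colour0 B hρ0 hρ1
  obtain ⟨Λ, hΛ⟩ : ∃ Λ : ℝ, Λ = 2 ^ Fintype.card B - 1 := ⟨_, rfl⟩
  rw [← hΛ] at h ⊢
  have hΛ1 : 1 ≤ Λ := by
    have : (2:ℝ) ^ 1 ≤ 2 ^ Fintype.card B := pow_le_pow_right₀ (by norm_num) Fintype.card_pos
    linarith
  refine ⟨⌈N0⌉₊ + 1, fun N hN => ?_⟩
  have hN' : (⌈N0⌉₊ + 1 : ℝ) ≤ N := by exact_mod_cast hN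
  have hN0 : (0:ℝ) < N := lt_of_lt_of_le (by positivity) hN'
  obtain ⟨F, y, a, G, h1, h2, h3, h4, h5, h6⟩ := h N (by linarith [Nat.le_ceil N0])
  refine ⟨fun k j => sg (G k j), F, fun k j => sg_or _, h1, h2, h3, fun S hS =>
    ⟨by linarith [(h6 S hS).1], ?_⟩⟩
  have hs : 0 < √N := Real.sqrt_pos.2 hN0
  have hs2 : √N * √N = (N:ℝ) := Real.mul_self_sqrt hN0.le
  rw [I2_sub (BM.sum _ fun k _ => (BM.const _).mul (BM.ee (by fun_prop))) ((BM.const _).mul (h1 S))]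
  have e1 := I2_poly (range N) (fun k => (((∏ j ∈ S, sg (G k j)) / √N : ℝ) : ℂ)) (fun k => (k : ℤ))
    (fun _ _ _ _ h => by simpa using h)
  simp only [Int.cast_natCast] at e1
  have e2 : ∑ k ∈ range N, ‖(((∏ j ∈ S, sg (G k j)) / √N : ℝ) : ℂ)‖ ^ 2 = 1 := by
    rw [Finset.sum_congr rfl (g := fun _ => 1 / (N:ℝ)) fun k _ => by
      rw [Complex.norm_real, Real.norm_eq_abs, abs_div, abs_prod_sg, abs_of_pos hs, div_pow, one_pow,
        Real.sq_sqrt hN0.le]]
    simp [hN0.ne']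
  have e3 : ∫ t in (0:ℝ)..1, ((√Λ : ℝ) : ℂ) * F S t * (starRingEnd ℂ)
      (∑ k ∈ range N, (((∏ j ∈ S, sg (G k j)) / √N : ℝ) : ℂ) * ee (k * t)) =
      ∑ k ∈ range N, (((∏ j ∈ S, sg (G k j)) / √N * √Λ : ℝ) : ℂ) * fc (F S) k := by
    simp_rw [map_sum, Finset.mul_sum]
    rw [intervalIntegral.integral_finsetSum fun k _ => (((BM.const _).mul (h1 S)).mul
      ((BM.const _).mul (BM.ee (by fun_prop))).conj).ii _ _]
    refine Finset.sum_congr rfl fun k _ => ?_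
    unfold fc
    rw [← intervalIntegral.integral_const_mul]
    refine intervalIntegral.integral_congr fun t _ => ?_
    simp only [map_mul, Complex.conj_ofReal, ← ee_neg]; push_cast; ring
  have e4 : (∑ k ∈ range N, (((∏ j ∈ S, sg (G k j)) / √N * √Λ : ℝ) : ℂ) * fc (F S) k).re =
      (∑ k ∈ range N, (∏ j ∈ S, sg (G k j)) * y k S) / N := by
    rw [Complex.re_sum, Finset.sum_div]
    refine Finset.sum_congr rfl fun k _ => ?_
    rw [Complex.re_ofReal_mul, ← ((h6 S hS).2.2.2 k).1, Real.sqrt_mul (by linarith)]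
    field_simp
    rw [Real.sq_sqrt hN0.le]; ring
  rw [e1, e2, e3, e4, I2_const_mul, Complex.norm_real, Real.norm_eq_abs, sq_abs,
    Real.sq_sqrt (by linarith)]
  have b1 := Finset.sum_le_sum fun k (_ : k ∈ range N) => round_pt hρ0 hρ1 (G k) (y k) (h4 k).1
    (h4 k).2 (h5 k) (fun S hS => ((h6 S hS).2.2.2 k).2) hS
  rw [Finset.sum_sub_distrib, ← Finset.mul_sum, Finset.sum_comm] at b1
  have b2 : ∑ j ∈ S, ∑ k ∈ range N, (1 - y k {j} ^ 2 + 24 * ρ) ≤ b * (25 * ρ * N) := by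
    refine (Finset.sum_le_sum (g := fun _ => 25 * ρ * N) fun j _ => ?_).trans ?_
    · have := (h6 {j} (Finset.singleton_nonempty j)).2.2.1
      rw [Finset.sum_add_distrib, Finset.sum_sub_distrib]
      simp only [Finset.sum_const, Finset.card_range, nsmul_eq_mul]
      linarith
    · rw [Finset.sum_const, nsmul_eq_mul, hb]
      exact mul_le_mul_of_nonneg_right (by exact_mod_cast Finset.card_le_univ S) (by positivity)
  simp only [Finset.sum_const, Finset.card_range, nsmul_eq_mul] at b1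
  have b3 : 1 - ρ - 50 * b * ρ ≤ (∑ k ∈ range N, (∏ j ∈ S, sg (G k j)) * y k S) / N := by
    rw [le_div_iff₀ hN0]; linarith
  linarith [(h6 S hS).2.1]

end Vale.Agent.P130
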