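import Vale.Agent.P130.Block

/-! Hilbert space tools. -/

namespace Vale.Agent.P130

open Finset MeasureTheory Filter Topology Vale.Agent.P110

lemma lim_op {E K : Type*} [NormedAddCommGroup E] [NormedSpace ℂ E] [NormedAddCommGroup K]
    [NormedSpace ℂ K] [CompleteSpace K] (Φ : ℕ → E →L[ℂ] K) (hc : ∀ m g, ‖Φ m g‖ ≤ ‖g‖) {D : Set E}
    (hD : Dense D) (h : ∀ g ∈ D, CauchySeq fun m => Φ m g) :
    ∃ Ψ : E →L[ℂ] K, ∀ g, Tendsto (fun m => Φ m g) atTop (𝓝 (Ψ g)) := by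
  have h1 : ∀ g, CauchySeq fun m => Φ m g := by
    intro g
    rw [Metric.cauchySeq_iff]
    intro ε hε
    obtain ⟨g', hg', hd⟩ := hD.exists_dist_lt g (by positivity : 0 < ε / 3)
    obtain ⟨N, hN⟩ := Metric.cauchySeq_iff.1 (h g' hg') (ε / 3) (by positivity)
    refine ⟨N, fun m hm n hn => ?_⟩
    have h2 : ∀ m, dist (Φ m g) (Φ m g') < ε / 3 := fun m => by
      rw [dist_eq_norm, ← map_sub]; exact (hc m _).trans_lt (by rwa [← dist_eq_norm])
    have := dist_triangle4 (Φ m g) (Φ m g') (Φ n g') (Φ n g)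
    have := hN m hm n hn
    have := h2 m
    have := h2 n
    rw [dist_comm] at this
    linarith
  choose ψ hψ using fun g => cauchySeq_tendsto_of_complete (h1 g)
  refine ⟨LinearMap.mkContinuous ⟨⟨ψ, fun a b => tendsto_nhds_unique (hψ _) ?_⟩,
    fun c a => tendsto_nhds_unique (hψ _) ?_⟩ 1 fun g => ?_, hψ⟩
  · simpa using (hψ a).add (hψ b)
  · simpa using (hψ a).const_smul c
  · rw [one_mul]; exact le_of_tendsto' (hψ g).norm fun m => hc m g

lemma inner_eq {α : Type*} [MeasurableSpace α] {μ : Measure α} {k k' : Lp ℂ 2 μ} {f f' : α → ℂ}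
    (h : k =ᵐ[μ] f) (h' : k' =ᵐ[μ] f') :
    inner ℂ k k' = ∫ x, f' x * (starRingEnd ℂ) (f x) ∂μ := by
  rw [L2.inner_def]
  refine integral_congr_ae ?_
  filter_upwards [h, h'] with x h1 h2
  rw [h1, h2, RCLike.inner_apply]

lemma norm_sq_eq {α : Type*} [MeasurableSpace α] {μ : Measure α} {k : Lp ℂ 2 μ} {f : α → ℂ}
    (h : k =ᵐ[μ] f) : ‖k‖ ^ 2 = ∫ x, ‖f x‖ ^ 2 ∂μ := by
  apply Complex.ofReal_injective
  have := inner_eq h h
  rw [inner_self_eq_norm_sq_to_K] at this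
  simp_rw [Complex.mul_conj, Complex.normSq_eq_norm_sq] at this
  rw [integral_complex_ofReal] at this
  rw [← this]; push_cast; rfl

/-- Square integrable functions on the unit interval. -/
noncomputable abbrev KK := Lp ℂ 2 (volume.restrict (Set.Ioc (0:ℝ) 1))

lemma norm_KK {k : KK} {f : ℝ → ℂ} (h : k =ᵐ[volume.restrict (Set.Ioc (0:ℝ) 1)] f) :
    ‖k‖ ^ 2 = I2 f := by
  rw [norm_sq_eq h, I2, intervalIntegral.integral_of_le zero_le_one]

lemma norm_KK_le {k : KK} {f : ℝ → ℂ} (h : k =ᵐ[volume.restrict (Set.Ioc (0:ℝ) 1)] f) {C : ℝ}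
    (hC : 0 ≤ C) (h1 : I2 f ≤ C ^ 2) : ‖k‖ ≤ C := by
  rw [← norm_KK h] at h1
  exact (pow_le_pow_iff_left₀ (norm_nonneg _) hC two_ne_zero).1 h1

/-- The class of a bounded measurable function. -/
noncomputable def tl {f : ℝ → ℂ} (hf : BM f) : KK := (hf.memLp 0 1 2).toLp f

lemma tl_coe {f : ℝ → ℂ} (hf : BM f) : tl hf =ᵐ[volume.restrict (Set.Ioc (0:ℝ) 1)] f :=
  MemLp.coeFn_toLp _

lemma mul_memLp {w : ℝ → ℂ} (hw : BM w) (k : KK) :
    MemLp (fun t => w t * k t) 2 (volume.restrict (Set.Ioc (0:ℝ) 1)) :=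
  MemLp.of_le_mul (c := hw.bdd.choose) (Lp.memLp k)
    (hw.meas.aestronglyMeasurable.mul (Lp.aestronglyMeasurable k)) (Eventually.of_forall fun t => by
      rw [norm_mul]; exact mul_le_mul_of_nonneg_right (hw.bdd.choose_spec t) (norm_nonneg _))

lemma mul_norm {w : ℝ → ℂ} (hw : BM w) {C : ℝ} (h : ∀ t, ‖w t‖ ≤ C) (k : KK) :
    ‖(mul_memLp hw k).toLp _‖ ≤ C * ‖k‖ :=
  Lp.norm_le_mul_norm_of_ae_le_mul ((mul_memLp hw k).coeFn_toLp.mono fun t ht => by
    rw [ht, norm_mul]; exact mul_le_mul_of_nonneg_right (h t) (norm_nonneg _))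

/-- Multiplication by a bounded measurable function. -/
noncomputable def mop {w : ℝ → ℂ} (hw : BM w) : KK →L[ℂ] KK :=
  LinearMap.mkContinuous ⟨⟨fun k => (mul_memLp hw k).toLp _, fun a b => Lp.ext (by
    filter_upwards [(mul_memLp hw (a + b)).coeFn_toLp, (mul_memLp hw a).coeFn_toLp,
      (mul_memLp hw b).coeFn_toLp, Lp.coeFn_add a b,
      Lp.coeFn_add ((mul_memLp hw a).toLp _) ((mul_memLp hw b).toLp _)] with t h1 h2 h3 h4 h5
    rw [h5, h1, h4, Pi.add_apply, Pi.add_apply, h2, h3, mul_add])⟩, fun c a => Lp.ext (by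
    filter_upwards [(mul_memLp hw (c • a)).coeFn_toLp, (mul_memLp hw a).coeFn_toLp,
      Lp.coeFn_smul c a, Lp.coeFn_smul c ((mul_memLp hw a).toLp _)] with t h1 h2 h4 h5
    rw [RingHom.id_apply, h5, h1, h4, Pi.smul_apply, Pi.smul_apply, h2, smul_eq_mul, smul_eq_mul]
    ring)⟩ hw.bdd.choose (mul_norm hw hw.bdd.choose_spec)

lemma mop_coe {w : ℝ → ℂ} (hw : BM w) (k : KK) :
    mop hw k =ᵐ[volume.restrict (Set.Ioc (0:ℝ) 1)] fun t => w t * k t := (mul_memLp hw k).coeFn_toLp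

lemma mop_norm {w : ℝ → ℂ} (hw : BM w) {C : ℝ} (h : ∀ t, ‖w t‖ ≤ C) (k : KK) :
    ‖mop hw k‖ ≤ C * ‖k‖ := mul_norm hw h k

lemma fejer {W : ℝ → ℂ} (hW : BM W) (h1 : ∀ t, ‖W t‖ = 1) {ε : ℝ} (hε : 0 < ε) (hε1 : ε ≤ 1) :
    ∃ (s : Finset (ℕ × ℕ)) (c : ℕ × ℕ → ℂ) (n : ℕ × ℕ → ℤ),
      (∀ t : ℝ, ‖∑ i ∈ s, c i * ee (n i * t)‖ ≤ 1) ∧
      I2 (fun t => ∑ i ∈ s, c i * ee (n i * t) - W t) ≤ ε := by
  classical
  have hI : I2 W = 1 := by simp [I2, h1]
  have hs := hasSum_fc (hW.memLp 0 1 2)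
  rw [hI] at hs
  obtain ⟨s, hs⟩ := (hs.eventually (lt_mem_nhds (by linarith : 1 - ε / 4 < 1))).exists
  set K := s.sup Int.natAbs with hK
  obtain ⟨N, hN⟩ := exists_nat_gt (8 * K / ε)
  have hN0 : (0:ℝ) < N := lt_of_le_of_lt (by positivity) hN
  have hN0' : (N : ℂ) ≠ 0 := by exact_mod_cast hN0.ne'
  rw [div_lt_iff₀ hε] at hN
  have hp : ∀ t : ℝ, ‖∑ i ∈ range N ×ˢ range N, fc W ((i.1 - i.2 : ℤ)) / N *
      ee ((i.1 - i.2 : ℤ) * t)‖ ≤ 1 := by
    intro t
    have e : ∑ i ∈ range N ×ˢ range N, fc W ((i.1 - i.2 : ℤ)) / N * ee ((i.1 - i.2 : ℤ) * t) =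
        ∫ x in (0:ℝ)..1, W x * ((‖dir N (t - x)‖ ^ 2 : ℝ) : ℂ) / N := by
      have h2 := fun x => normSq_sum_ee (range N) (fun _ => 1) (fun k => (k : ℤ)) (t - x)
      simp only [Complex.ofReal_one, one_mul, Int.cast_natCast, ← Finset.sum_product'] at h2
      simp only [dir, h2, Finset.mul_sum, Finset.sum_div]
      rw [intervalIntegral.integral_finsetSum fun i _ =>
        ((hW.mul (BM.ee (by fun_prop))).div_const _).ii _ _]
      refine Finset.sum_congr rfl fun i _ => ?_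
      rw [fc, div_mul_eq_mul_div, ← intervalIntegral.integral_mul_const,
        ← intervalIntegral.integral_div]
      refine intervalIntegral.integral_congr fun x _ => ?_
      simp only [mul_assoc, ← ee_add]; congr 3; ring
    rw [e]
    refine (intervalIntegral.norm_integral_le_integral_norm zero_le_one).trans (le_of_eq ?_)
    have h3 := intervalIntegral.integral_comp_sub_left (a := 0) (b := 1) (fun x => ‖dir N x‖ ^ 2) t
    have h4 := integral_normSq_dir N (t - 1)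
    rw [sub_add_cancel] at h4
    rw [sub_zero, h4] at h3
    simp only [norm_div, norm_mul, h1, one_mul, Complex.norm_real, Complex.norm_natCast,
      Real.norm_eq_abs, abs_pow, abs_norm]
    rw [intervalIntegral.integral_div, h3, div_self hN0.ne']
  refine ⟨range N ×ˢ range N, fun i => fc W ((i.1 - i.2 : ℤ)) / N, fun i => i.1 - i.2, hp, ?_⟩
  have hb : BM fun t => ∑ i ∈ range N ×ˢ range N, fc W ((i.1 - i.2 : ℤ)) / N *
      ee ((i.1 - i.2 : ℤ) * t) := BM.sum _ fun _ _ => (BM.const _).mul (BM.ee (by fun_prop))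
  rw [I2_sub hb hW, hI]
  have b1 := I2_le_mul hb hW (C := 1) fun t => by
    rw [h1, one_pow, one_mul]; exact pow_le_one₀ (norm_nonneg _) (hp t)
  have e2 : ∫ t in (0:ℝ)..1, W t * (starRingEnd ℂ) (∑ i ∈ range N ×ˢ range N,
      fc W ((i.1 - i.2 : ℤ)) / N * ee ((i.1 - i.2 : ℤ) * t)) =
      (((∑ i ∈ range N ×ˢ range N, ‖fc W ((i.1 - i.2 : ℤ))‖ ^ 2) / N : ℝ) : ℂ) := by
    simp_rw [map_sum, Finset.mul_sum]
    rw [intervalIntegral.integral_finsetSum fun k _ => (hW.mul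
      ((BM.const _).mul (BM.ee (by fun_prop))).conj).ii _ _, Finset.sum_div, Complex.ofReal_sum]
    refine Finset.sum_congr rfl fun i _ => ?_
    rw [← Complex.normSq_eq_norm_sq, Complex.ofReal_div, ← Complex.mul_conj, mul_div_assoc]
    nth_rewrite 2 [fc]
    rw [← intervalIntegral.integral_mul_const]
    refine intervalIntegral.integral_congr fun t _ => ?_
    simp only [map_mul, map_div₀, ← ee_neg, map_natCast]; push_cast; ring
  have b2 : (N - 2 * K : ℝ) * (1 - ε / 4) ≤ ∑ i ∈ range N ×ˢ range N, ‖fc W ((i.1 - i.2 : ℤ))‖ ^ 2 := by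
    rw [Finset.sum_product]
    refine le_trans ?_ (Finset.sum_le_sum_of_subset_of_nonneg (s := Ico K (N - K))
      (fun a ha => Finset.mem_range.2 (by have := Finset.mem_Ico.1 ha; omega))
      fun _ _ _ => by positivity)
    refine le_trans ?_ (Finset.card_nsmul_le_sum _ _ (1 - ε / 4) fun a ha => hs.le.trans ?_)
    · rw [nsmul_eq_mul, Nat.card_Ico]
      refine mul_le_mul_of_nonneg_right ?_ (by linarith)
      have : (N:ℝ) ≤ ((N - K - K : ℕ) + 2 * K : ℕ) := by exact_mod_cast (by omega)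
      push_cast at this; linarith
    · rw [← Finset.sum_image (s := range N) (g := fun b : ℕ => (a - b : ℤ))
        (f := fun k : ℤ => ‖fc W k‖ ^ 2) fun _ _ _ _ h => by simpa using h]
      refine Finset.sum_le_sum_of_subset_of_nonneg (fun k hk => ?_) fun _ _ _ => by positivity
      have h2 : k.natAbs ≤ K := Finset.le_sup (f := Int.natAbs) hk
      have h3 := Finset.mem_Ico.1 ha
      exact Finset.mem_image.2 ⟨(a - k).toNat, Finset.mem_range.2 (by omega), by omega⟩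
  rw [e2, Complex.ofReal_re]
  have b3 : 1 - ε / 2 ≤ (∑ i ∈ range N ×ˢ range N, ‖fc W ((i.1 - i.2 : ℤ))‖ ^ 2) / N := by
    rw [le_div_iff₀ hN0]
    have : (0:ℝ) ≤ K * ε := by positivity
    nlinarith
  rw [hI] at b1
  linarith

lemma ee_BM (n : ℤ) : BM fun t => ee (n * t) := BM.ee (by fun_prop)

lemma cyc (R : Submodule ℂ KK) (hR : IsClosed (R : Set KK))
    (inv : ∀ (n : ℤ), ∀ k ∈ R, mop (ee_BM n) k ∈ R)
    (app : ∀ ε > 0, ∃ W, ∃ hW : BM W, (∀ t, ‖W t‖ = 1) ∧ ∃ r ∈ R, ‖r - tl hW‖ ≤ ε) :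
    tl (BM.const 1) ∈ R := by
  rw [← SetLike.mem_coe, ← hR.closure_eq, Metric.mem_closure_iff]
  intro ε hε
  obtain ⟨W, hW, h1, r, hr, h2⟩ := app (ε / 3) (by positivity)
  obtain ⟨s, c, n, h3, h4⟩ := fejer hW.conj (by simpa using h1) (ε := min 1 ((ε / 3) ^ 2))
    (lt_min one_pos (by positivity)) (min_le_left _ _)
  have hb : BM fun t => ∑ i ∈ s, c i * ee (n i * t) :=
    BM.sum _ fun _ _ => (BM.const _).mul (ee_BM _)
  have e : mop hb r = ∑ i ∈ s, c i • mop (ee_BM (n i)) r := Lp.ext (by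
    filter_upwards [mop_coe hb r, Lp.coeFn_finsetSum s fun i => c i • mop (ee_BM (n i)) r,
      ae_all_iff.2 fun i => Lp.coeFn_smul (c i) (mop (ee_BM (n i)) r),
      ae_all_iff.2 fun i => mop_coe (ee_BM (n i)) r] with t h5 h6 h7 h8
    rw [h5, h6, Finset.sum_apply, Finset.sum_mul]
    exact Finset.sum_congr rfl fun i _ => by rw [h7, Pi.smul_apply, h8, smul_eq_mul, mul_assoc])
  refine ⟨mop hb r, e ▸ R.sum_mem fun i _ => R.smul_mem _ (inv _ _ hr), ?_⟩
  have b1 : ‖mop hb r - mop hb (tl hW)‖ ≤ ε / 3 := by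
    rw [← map_sub]; exact (mop_norm hb h3 _).trans (by linarith)
  have b2 : ‖mop hb (tl hW) - tl (BM.const 1)‖ ≤ ε / 3 := by
    refine norm_KK_le (f := fun t => W t * (∑ i ∈ s, c i * ee (n i * t) - (starRingEnd ℂ) (W t)))
      ?_ (by positivity) ((I2_mul_le hW (hb.sub hW.conj) fun t => (h1 t).le).trans
        (by linarith [min_le_right 1 ((ε / 3) ^ 2)]))
    filter_upwards [Lp.coeFn_sub (mop hb (tl hW)) (tl (BM.const 1)), mop_coe hb (tl hW), tl_coe hW,
      tl_coe (BM.const 1)] with t h5 h6 h7 h8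
    rw [h5, Pi.sub_apply, h6, h7, h8, mul_sub, Complex.mul_conj, Complex.normSq_eq_norm_sq, h1]
    push_cast; ring
  rw [dist_comm, dist_eq_norm]
  have := norm_sub_le_norm_sub_add_norm_sub (mop hb r) (mop hb (tl hW)) (tl (BM.const 1))
  linarith

lemma inner_ee (n : ℤ) (k : KK) : inner ℂ (tl (ee_BM n)) k = fc k n := by
  rw [inner_eq (tl_coe _) (ae_eq_refl _), fc, intervalIntegral.integral_of_le zero_le_one]
  simp_rw [ee_neg]

lemma inner_ee_ee (n m : ℤ) : inner ℂ (tl (ee_BM n)) (tl (ee_BM m)) = if m = n then 1 else 0 := by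
  rw [inner_eq (tl_coe _) (tl_coe _), ← intervalIntegral.integral_of_le zero_le_one]
  have := integral_ee (m - n) 0
  simp only [zero_add, sub_eq_zero] at this
  rw [← this]
  refine intervalIntegral.integral_congr fun t _ => ?_
  simp only [← ee_neg, ← ee_add]; congr 1; push_cast; ring

lemma ee_total {k : KK} (h : ∀ n : ℤ, inner ℂ (tl (ee_BM n)) k = 0) : k = 0 := by
  have h1 := hasSum_fc (Lp.memLp k)
  simp_rw [← inner_ee, h] at h1
  have h2 := norm_KK (ae_eq_refl k)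
  simp only [norm_zero, ne_eq, OfNat.ofNat_ne_zero, not_false_eq_true, zero_pow] at h1
  rw [h1.unique hasSum_zero] at h2
  simpa using h2

lemma mop_one (n : ℤ) : mop (ee_BM n) (tl (BM.const 1)) = tl (ee_BM n) := Lp.ext (by
  filter_upwards [mop_coe (ee_BM n) (tl (BM.const 1)), tl_coe (BM.const 1), tl_coe (ee_BM n)]
    with t h1 h2 h3
  rw [h1, h2, h3, mul_one])

end Vale.Agent.P130
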