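import Vale.Agent.P110.Trunc

/-! Elementary quadratic mean estimates on the unit interval. -/

namespace Vale.Agent.P130

open Real Finset MeasureTheory intervalIntegral Vale.Agent.P110

/-- Bounded measurable functions. -/
structure BM (f : ℝ → ℂ) : Prop where
  meas : Measurable f
  bdd : ∃ C : ℝ, ∀ x, ‖f x‖ ≤ C

lemma BM.const (c : ℂ) : BM fun _ => c := ⟨measurable_const, ‖c‖, fun _ => le_rfl⟩

lemma BM.add {f g : ℝ → ℂ} (hf : BM f) (hg : BM g) : BM fun x => f x + g x := by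
  obtain ⟨C, hC⟩ := hf.bdd; obtain ⟨D, hD⟩ := hg.bdd
  exact ⟨hf.meas.add hg.meas, C + D, fun x => (norm_add_le _ _).trans (add_le_add (hC x) (hD x))⟩

lemma BM.sub {f g : ℝ → ℂ} (hf : BM f) (hg : BM g) : BM fun x => f x - g x := by
  obtain ⟨C, hC⟩ := hf.bdd; obtain ⟨D, hD⟩ := hg.bdd
  exact ⟨hf.meas.sub hg.meas, C + D, fun x => (norm_sub_le _ _).trans (add_le_add (hC x) (hD x))⟩

lemma BM.mul {f g : ℝ → ℂ} (hf : BM f) (hg : BM g) : BM fun x => f x * g x := by
  obtain ⟨C, hC⟩ := hf.bdd; obtain ⟨D, hD⟩ := hg.bdd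
  exact ⟨hf.meas.mul hg.meas, C * D, fun x => by
    rw [norm_mul]; exact mul_le_mul (hC x) (hD x) (norm_nonneg _) ((norm_nonneg _).trans (hC x))⟩

lemma BM.div_const {f : ℝ → ℂ} (hf : BM f) (c : ℂ) : BM fun x => f x / c := by
  simpa [div_eq_mul_inv] using hf.mul (BM.const c⁻¹)

lemma BM.sum {ι : Type*} (s : Finset ι) {f : ι → ℝ → ℂ} (hf : ∀ i ∈ s, BM (f i)) :
    BM fun x => ∑ i ∈ s, f i x := by
  classical
  induction s using Finset.induction_on with
  | empty => simpa using BM.const 0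
  | insert a s ha ih =>
    simp_rw [Finset.sum_insert ha]
    exact (hf a (Finset.mem_insert_self _ _)).add (ih fun i hi => hf i (Finset.mem_insert_of_mem hi))

lemma BM.comp {f : ℝ → ℂ} (hf : BM f) {g : ℝ → ℝ} (hg : Measurable g) : BM fun x => f (g x) := by
  obtain ⟨C, hC⟩ := hf.bdd
  exact ⟨hf.meas.comp hg, C, fun x => hC _⟩

lemma BM.conj {f : ℝ → ℂ} (hf : BM f) : BM fun x => (starRingEnd ℂ) (f x) := by
  obtain ⟨C, hC⟩ := hf.bdd
  exact ⟨Complex.continuous_conj.measurable.comp hf.meas, C, fun x => by simpa using hC x⟩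

lemma BM.norm {f : ℝ → ℂ} (hf : BM f) : BM fun x => (‖f x‖ : ℂ) := by
  obtain ⟨C, hC⟩ := hf.bdd
  exact ⟨Complex.measurable_ofReal.comp hf.meas.norm, C, fun x => by simpa using hC x⟩

lemma BM.ee {g : ℝ → ℝ} (hg : Measurable g) : BM fun x => ee (g x) :=
  ⟨continuous_ee.measurable.comp hg, 1, fun _ => (norm_ee _).le⟩

lemma BM.indicator {f : ℝ → ℂ} (hf : BM f) {s : Set ℝ} (hs : MeasurableSet s) :
    BM (s.indicator f) := by
  obtain ⟨C, hC⟩ := hf.bdd
  exact ⟨hf.meas.indicator hs, C, fun x => (norm_indicator_le_norm_self f x).trans (hC x)⟩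

lemma BM.memLp {f : ℝ → ℂ} (hf : BM f) (a b : ℝ) (p : ENNReal) :
    MemLp f p (volume.restrict (Set.Ioc a b)) := by
  obtain ⟨C, hC⟩ := hf.bdd
  exact MemLp.of_bound hf.meas.aestronglyMeasurable C (Filter.Eventually.of_forall hC)

lemma BM.ii {f : ℝ → ℂ} (hf : BM f) (a b : ℝ) : IntervalIntegrable f volume a b :=
  ⟨memLp_one_iff_integrable.1 (hf.memLp a b 1), memLp_one_iff_integrable.1 (hf.memLp b a 1)⟩

lemma BM.ii2 {f : ℝ → ℂ} (hf : BM f) (a b : ℝ) :
    IntervalIntegrable (fun x => ‖f x‖ ^ 2) volume a b := by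
  have := (hf.mul hf).ii a b
  simpa [sq] using this.norm

/-- Squared quadratic mean. -/
noncomputable def I2 (f : ℝ → ℂ) : ℝ := ∫ t in (0:ℝ)..1, ‖f t‖ ^ 2

lemma I2_nonneg (f : ℝ → ℂ) : 0 ≤ I2 f :=
  intervalIntegral.integral_nonneg zero_le_one fun _ _ => by positivity

lemma I2_le_mul {f g : ℝ → ℂ} (hf : BM f) (hg : BM g) {C : ℝ} (h : ∀ t, ‖f t‖ ^ 2 ≤ C * ‖g t‖ ^ 2) :
    I2 f ≤ C * I2 g := by
  unfold I2
  rw [← intervalIntegral.integral_const_mul]
  exact intervalIntegral.integral_mono_on zero_le_one (hf.ii2 _ _) ((hg.ii2 _ _).const_mul C)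
    fun t _ => h t

lemma I2_mul_le {f g : ℝ → ℂ} (hf : BM f) (hg : BM g) {C : ℝ} (h : ∀ t, ‖f t‖ ≤ C) :
    I2 (fun t => f t * g t) ≤ C ^ 2 * I2 g :=
  I2_le_mul (hf.mul hg) hg fun t => by
    rw [norm_mul, mul_pow]
    exact mul_le_mul_of_nonneg_right (pow_le_pow_left₀ (norm_nonneg _) (h t) 2) (by positivity)

lemma I2_const_mul (c : ℂ) (f : ℝ → ℂ) : I2 (fun t => c * f t) = ‖c‖ ^ 2 * I2 f := by
  unfold I2; simp_rw [norm_mul, mul_pow]; rw [intervalIntegral.integral_const_mul]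

lemma I2_sum_le {ι : Type*} (s : Finset ι) {f : ι → ℝ → ℂ} (hf : ∀ i ∈ s, BM (f i)) :
    I2 (fun t => ∑ i ∈ s, f i t) ≤ s.card * ∑ i ∈ s, I2 (f i) := by
  unfold I2
  rw [← intervalIntegral.integral_finsetSum fun i hi => (hf i hi).ii2 _ _,
    ← intervalIntegral.integral_const_mul]
  refine intervalIntegral.integral_mono_on zero_le_one ((BM.sum s hf).ii2 _ _)
    (IntervalIntegrable.const_mul ?_ _) fun t _ => ?_
  · have := IntervalIntegrable.sum (μ := volume) (a := 0) (b := 1) s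
      (f := fun i t => ‖f i t‖ ^ 2) fun i hi => (hf i hi).ii2 _ _
    refine this.congr fun t _ => ?_
    simp
  · exact (pow_le_pow_left₀ (norm_nonneg _) (norm_sum_le _ _) 2).trans sq_sum_le_card_mul_sum_sq

lemma I2_add_le {f g : ℝ → ℂ} (hf : BM f) (hg : BM g) :
    I2 (fun t => f t + g t) ≤ 2 * I2 f + 2 * I2 g := by
  unfold I2
  rw [← intervalIntegral.integral_const_mul, ← intervalIntegral.integral_const_mul,
    ← intervalIntegral.integral_add ((hf.ii2 _ _).const_mul _) ((hg.ii2 _ _).const_mul _)]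
  refine intervalIntegral.integral_mono_on zero_le_one ((hf.add hg).ii2 _ _)
    (((hf.ii2 _ _).const_mul _).add ((hg.ii2 _ _).const_mul _)) fun t _ => ?_
  have := pow_le_pow_left₀ (norm_nonneg _) (norm_add_le (f t) (g t)) 2
  nlinarith [sq_nonneg (‖f t‖ - ‖g t‖)]

lemma I2_sub {f g : ℝ → ℂ} (hf : BM f) (hg : BM g) : I2 (fun t => f t - g t) =
    I2 f + I2 g - 2 * (∫ t in (0:ℝ)..1, g t * (starRingEnd ℂ) (f t)).re := by
  unfold I2
  have h1 := (hg.mul hf.conj).ii 0 1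
  have h2 := Complex.reCLM.intervalIntegral_comp_comm h1
  simp only [Complex.reCLM_apply] at h2
  have h3 : IntervalIntegrable (fun t => (g t * (starRingEnd ℂ) (f t)).re) volume 0 1 :=
    ⟨h1.1.re, h1.2.re⟩
  rw [← h2, ← intervalIntegral.integral_const_mul, ← intervalIntegral.integral_add (hf.ii2 _ _)
    (hg.ii2 _ _), ← intervalIntegral.integral_sub ((hf.ii2 _ _).add (hg.ii2 _ _)) (h3.const_mul _)]
  refine intervalIntegral.integral_congr fun t _ => ?_
  simp only [← Complex.normSq_eq_norm_sq, Complex.normSq_apply, Complex.sub_re, Complex.sub_im,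
    Complex.mul_re, Complex.conj_re, Complex.conj_im]
  ring

lemma I2_poly {ι : Type*} (s : Finset ι) (c : ι → ℂ) (n : ι → ℤ) (hn : Set.InjOn n s) :
    I2 (fun t => ∑ i ∈ s, c i * ee (n i * t)) = ∑ i ∈ s, ‖c i‖ ^ 2 := by
  classical
  have h : ∀ t : ℝ, ((‖∑ i ∈ s, c i * ee (n i * t)‖ ^ 2 : ℝ) : ℂ) =
      ∑ i ∈ s, ∑ j ∈ s, (c i * (starRingEnd ℂ) (c j)) * ee ((n i - n j : ℤ) * t) := by
    intro t
    rw [← Complex.normSq_eq_norm_sq, ← Complex.mul_conj, map_sum, Finset.sum_mul_sum]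
    refine Finset.sum_congr rfl fun i _ => Finset.sum_congr rfl fun j _ => ?_
    rw [map_mul, ← ee_neg]
    have : (((n i - n j : ℤ) : ℝ) * t) = n i * t + -(n j * t) := by push_cast; ring
    rw [this, ee_add]; ring
  apply Complex.ofReal_injective
  unfold I2
  rw [← intervalIntegral.integral_ofReal]
  simp_rw [h]
  rw [intervalIntegral.integral_finsetSum (fun i _ => by
    apply Continuous.intervalIntegrable; fun_prop), Complex.ofReal_sum]
  refine Finset.sum_congr rfl fun i hi => ?_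
  rw [intervalIntegral.integral_finsetSum (fun i _ => by
    apply Continuous.intervalIntegrable; fun_prop), Finset.sum_eq_single i]
  · simp [Complex.mul_conj, Complex.normSq_eq_norm_sq]
  · intro j hj hji
    have := integral_ee (n i - n j) 0
    rw [zero_add, if_neg (sub_ne_zero.2 fun h => hji (hn hj hi h.symm))] at this
    rw [intervalIntegral.integral_const_mul, this, mul_zero]
  · intro h; exact absurd hi h

lemma I2_fract {f : ℝ → ℂ} (hf : BM f) {h : ℕ} (hh : 0 < h) :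
    I2 (fun t => f (Int.fract (h * t))) = I2 f := by
  have hh' : (h : ℝ) ≠ 0 := by exact_mod_cast hh.ne'
  have hp : Function.Periodic (fun x => ‖f (Int.fract x)‖ ^ 2) 1 := fun x => by simp
  have hb := hf.comp measurable_fract
  unfold I2
  rw [intervalIntegral.integral_comp_mul_left (fun x => ‖f (Int.fract x)‖ ^ 2) hh']
  have h1 := hp.intervalIntegral_add_zsmul_eq (h : ℤ) 0 fun a b => hb.ii2 a b
  simp only [zero_add, zsmul_eq_mul, Int.cast_natCast, mul_one] at h1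
  rw [mul_zero, mul_one, h1, smul_eq_mul, ← mul_assoc, inv_mul_cancel₀ hh', one_mul]
  refine intervalIntegral.integral_congr_ae ?_
  have : ∀ᵐ x : ℝ, x ≠ 1 := Measure.ae_ne volume 1
  filter_upwards [this] with x hx hx'
  rw [Set.uIoc_of_le zero_le_one] at hx'
  rw [Int.fract_eq_self.2 ⟨hx'.1.le, lt_of_le_of_ne hx'.2 hx⟩]

lemma fc_eq (F : ℝ → ℂ) (k : ℤ) : fourierCoeffOn zero_lt_one F k = fc F k := by
  rw [fourierCoeffOn_eq_integral]
  unfold fc
  simp only [sub_zero, div_one, one_smul, fourier_coe_apply, smul_eq_mul]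
  refine intervalIntegral.integral_congr fun x _ => ?_
  simp only [ee]
  rw [mul_comm]; congr 2; push_cast; ring

lemma hasSum_fc {F : ℝ → ℂ} (hF : MemLp F 2 (volume.restrict (Set.Ioc 0 1))) :
    HasSum (fun k : ℤ => ‖fc F k‖ ^ 2) (I2 F) := by
  have := hasSum_sq_fourierCoeffOn zero_lt_one hF
  simp_rw [fc_eq] at this
  simpa [I2] using this

lemma sum_inv_sq_le {x : ℝ} (hx : 2 ≤ x) (M : ℕ) : ∑ i ∈ range M, 1 / (x + i) ^ 2 ≤ 2 / x := by
  have h : ∀ M : ℕ, ∑ i ∈ range M, 1 / (x + i) ^ 2 ≤ 1 / (x - 1) - 1 / (x - 1 + M) := by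
    intro M
    induction M with
    | zero => simp
    | succ M ih =>
      rw [Finset.sum_range_succ]
      have h0 : (0:ℝ) ≤ M := by positivity
      have : 1 / (x + M) ^ 2 ≤ 1 / (x - 1 + M) - 1 / (x - 1 + (M + 1 : ℕ)) := by
        push_cast
        rw [div_sub_div _ _ (by linarith) (by linarith), div_le_div_iff₀ (by positivity)
          (mul_pos (by linarith) (by linarith))]
        nlinarith
      linarith
  have h0 : (0:ℝ) ≤ M := by positivity
  have h1 : 0 ≤ 1 / (x - 1 + M) := div_nonneg zero_le_one (by linarith)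
  have h2 : 1 / (x - 1) ≤ 2 / x := by
    rw [div_le_div_iff₀ (by linarith) (by linarith)]; linarith
  linarith [h M]

lemma inband {F : ℝ → ℂ} (hF : BM F) (N : ℕ) {C x : ℝ} (hx : 2 ≤ x)
    (h1 : ∀ i : ℕ, ‖fc F ((N + i : ℕ) : ℤ)‖ ≤ C / (x + i))
    (h2 : ∀ i : ℕ, ‖fc F ((-(i + 1) : ℤ))‖ ≤ C / (x + i)) :
    I2 F ≤ ∑ k ∈ range N, ‖fc F (k : ℤ)‖ ^ 2 + 4 * C ^ 2 / x := by
  have hs := (hasSum_fc (hF.memLp 0 1 2)).nat_add_neg_add_one
  refine le_of_tendsto hs.tendsto_sum_nat ?_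
  filter_upwards [Filter.eventually_ge_atTop N] with M hM
  obtain ⟨M', rfl⟩ := Nat.exists_eq_add_of_le hM
  rw [Finset.sum_add_distrib, Finset.sum_range_add]
  have b : ∀ (M : ℕ) (g : ℕ → ℝ), (∀ i, 0 ≤ g i) → (∀ i : ℕ, g i ≤ C / (x + i)) →
      ∑ i ∈ range M, g i ^ 2 ≤ 2 * C ^ 2 / x := by
    intro M g hg0 hg
    calc ∑ i ∈ range M, g i ^ 2 ≤ ∑ i ∈ range M, C ^ 2 * (1 / (x + i) ^ 2) :=
          Finset.sum_le_sum fun i _ => (pow_le_pow_left₀ (hg0 i) (hg i) 2).trans (le_of_eq (by rw [div_pow]; ring))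
      _ ≤ C ^ 2 * (2 / x) := by
          rw [← Finset.mul_sum]; exact mul_le_mul_of_nonneg_left (sum_inv_sq_le hx M) (sq_nonneg _)
      _ = _ := by ring
  have b1 := b M' _ (fun _ => norm_nonneg _) h1
  have b2 := b (N + M') _ (fun _ => norm_nonneg _) h2
  have : 4 * C ^ 2 / x = 2 * C ^ 2 / x + 2 * C ^ 2 / x := by ring
  linarith

end Vale.Agent.P130
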