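import Vale.Agent.P130.Block

/-! The measure-preserving system attached to a tower of rotated words. -/

namespace Vale.Agent.P130

open Finset MeasureTheory Filter Topology ProbabilityTheory

/-- Cyclic shift of a position. -/
def sh (h : ℕ) (n : ℤ) (j : ℕ) : ℕ := (((j : ℤ) + n) % h).toNat

lemma sh_cast {h : ℕ} (hh : 0 < h) (n : ℤ) (j : ℕ) : (sh h n j : ℤ) = (j + n) % h :=
  Int.toNat_of_nonneg (Int.emod_nonneg _ (by omega))

lemma sh_lt {h : ℕ} (hh : 0 < h) (n : ℤ) (j : ℕ) : sh h n j < h := by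
  have := sh_cast hh n j
  have := Int.emod_lt_of_pos (j + n) (by omega : (0:ℤ) < h)
  omega

lemma sh_sh {h : ℕ} (hh : 0 < h) (n n' : ℤ) (j : ℕ) : sh h n' (sh h n j) = sh h (n + n') j := by
  have : (sh h n' (sh h n j) : ℤ) = sh h (n + n') j := by
    rw [sh_cast hh, sh_cast hh, sh_cast hh, Int.emod_add_emod, add_assoc]
  exact_mod_cast this

lemma sh_in {h : ℕ} {n : ℤ} {j : ℕ} (h0 : 0 ≤ j + n) (h1 : j + n < h) : (sh h n j : ℤ) = j + n := by
  rw [sh_cast (by omega), Int.emod_eq_of_lt h0 h1]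

lemma sh_zero {h j : ℕ} (hj : j < h) : sh h 0 j = j := by
  have := sh_in (h := h) (n := 0) (j := j) (by omega) (by omega)
  omega

lemma sum_sh {M : Type*} [AddCommMonoid M] {h : ℕ} (hh : 0 < h) (n : ℤ) (F : ℕ → M) :
    ∑ j ∈ range h, F (sh h n j) = ∑ j ∈ range h, F j :=
  Finset.sum_nbij' (sh h n) (sh h (-n)) (fun _ _ => Finset.mem_range.2 (sh_lt hh _ _))
    (fun _ _ => Finset.mem_range.2 (sh_lt hh _ _))
    (fun j hj => by rw [sh_sh hh, add_neg_cancel, sh_zero (Finset.mem_range.1 hj)])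
    (fun j hj => by rw [sh_sh hh, neg_add_cancel, sh_zero (Finset.mem_range.1 hj)]) fun _ _ => rfl

lemma card_bad (h : ℕ) (n : ℤ) :
    ((range h).filter fun j : ℕ => ¬(0 ≤ j + n ∧ j + n < h)).card ≤ 2 * n.natAbs := by
  have : ((range h).filter fun j : ℕ => ¬(0 ≤ j + n ∧ j + n < h)) ⊆
      range n.natAbs ∪ Ico (h - n.natAbs) h := by
    intro j hj
    simp only [Finset.mem_filter, Finset.mem_range, Finset.mem_union, Finset.mem_Ico] at hj ⊢
    omega
  refine (Finset.card_le_card this).trans ((Finset.card_union_le _ _).trans ?_)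
  rw [Finset.card_range, Nat.card_Ico]; omega

lemma pr_lt {h : ℕ} (hh : 0 < h) (X : ℕ → ℕ) (j : ℕ) : pr h X j < h := Nat.mod_lt _ hh

lemma pr_blk' {h : ℕ} (hh : 0 < h) (X : ℕ → ℕ) (k : ℕ) {r : ℕ} (hr : r < h) :
    pr h X (k * h + r) = sh h (X k) r := by
  have : (pr h X (k * h + r) : ℤ) = sh h (X k) r := by
    rw [pr_blk X k hr, sh_cast hh, add_comm]; push_cast; rfl
  exact_mod_cast this

lemma pr_sh {h q j : ℕ} (X : ℕ → ℕ) {n : ℤ} (hj : j < q * h) (h0 : 0 ≤ (j % h : ℕ) + n)
    (h1 : (j % h : ℕ) + n < h) : pr h X (sh (q * h) n j) = sh h n (pr h X j) ∧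
      ((sh (q * h) n j % h : ℕ) : ℤ) = (j % h : ℕ) + n := by
  have hh : 0 < h := by omega
  obtain ⟨k, r, hr, rfl⟩ : ∃ k r, r < h ∧ j = k * h + r :=
    ⟨j / h, j % h, Nat.mod_lt _ hh, (Nat.div_add_mod' j h).symm⟩
  have e0 : ∀ r < h, (k * h + r) % h = r := fun r hr => by
    rw [Nat.mul_add_mod_self_right, Nat.mod_eq_of_lt hr]
  rw [e0 r hr] at h0 h1 ⊢
  have hk : k < q := by
    by_contra hc
    have := Nat.mul_le_mul_right h (not_lt.1 hc)
    omega
  have e1 := sh_in h0 h1
  have e2 : sh (q * h) n (k * h + r) = k * h + sh h n r := by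
    have hk' : (k + 1) * h ≤ q * h := Nat.mul_le_mul_right h hk
    rw [add_mul, one_mul] at hk'
    have := sh_in (h := q * h) (n := n) (j := k * h + r) (by omega) (by omega)
    omega
  rw [e2, e0 _ (sh_lt hh _ _), pr_blk' hh X k hr, pr_blk' hh X k (sh_lt hh _ _), sh_sh hh, sh_sh hh,
    add_comm n]
  exact ⟨rfl, e1⟩

lemma unif {α : Type*} [MeasurableSpace α] (ν : Measure α) {J : α → ℕ} (hJ : Measurable J) {h : ℕ}
    (hlt : ∀ x, J x < h) (hu : ∀ i < h, ν (J ⁻¹' {i}) = (h : ENNReal)⁻¹) (p : ℕ → Prop)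
    [DecidablePred p] : ν {x | p (J x)} = ((range h).filter p).card * (h : ENNReal)⁻¹ := by
  have e : {x | p (J x)} = J ⁻¹' ((range h).filter p : Finset ℕ) := by
    ext x; simp [hlt x]
  rw [e, ← sum_measure_preimage_singleton _ fun y _ => hJ (measurableSet_singleton y),
    Finset.sum_congr rfl fun i hi => hu i (Finset.mem_range.1 (Finset.mem_filter.1 hi).1)]
  simp

section

variable (q h : ℕ → ℕ) (X : ℕ → ℕ → ℕ)

/-- Positions determined by digits. -/
def pos (ω : ∀ m, Fin (q m)) : ℕ → ℕ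
  | 0 => 0
  | m + 1 => ω m * h m + sh (h m) (-X m (ω m)) (pos ω m)

/-- Consistent sequences of positions. -/
def Cons (x : ℕ → ℕ) : Prop := ∀ m, x m < h m ∧ x m = pr (h m) (X m) (x (m + 1))

/-- Positions that stay inside a block. -/
def Ins (n : ℤ) (m j : ℕ) : Prop := 0 ≤ (j % h m : ℕ) + n ∧ (j % h m : ℕ) + n < h m

instance (n : ℤ) (m j : ℕ) : Decidable (Ins h n m j) := by unfold Ins; infer_instance

/-- The phase space. -/
def Good : Set (ℕ → ℕ) := {x | Cons h X x ∧ ∀ n : ℤ, ∀ᶠ m in atTop, Ins h n m (x (m + 1))}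

end

variable {q h : ℕ → ℕ} {X : ℕ → ℕ → ℕ}

lemma good_meas : MeasurableSet (Good h X) := by
  unfold Good Cons Ins
  simp only [Filter.eventually_atTop]
  measurability

lemma base (h0 : h 0 = 1) (hs : ∀ m, h (m + 1) = q m * h m) (hg : ∀ m, 2 ^ m ≤ h m) :
    ∃ μ : Measure (ℕ → ℕ), IsProbabilityMeasure μ ∧ (∀ᵐ x ∂μ, x ∈ Good h X) ∧
      ∀ m i, i < h m → μ ((fun x => x m) ⁻¹' {i}) = (h m : ENNReal)⁻¹ := by
  have hh : ∀ m, 0 < h m := fun m => lt_of_lt_of_le (by positivity) (hg m)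
  have hq : ∀ m, 0 < q m := fun m => Nat.pos_of_mul_pos_right (hs m ▸ hh (m + 1))
  have : ∀ m, Nonempty (Fin (q m)) := fun m => ⟨⟨0, hq m⟩⟩
  set P : Measure (∀ m, Fin (q m)) := Measure.infinitePi fun m => uniformOn Set.univ with hP
  have hlt : ∀ m ω, pos q h X ω m < h m := by
    intro m ω
    cases m with
    | zero => simp [pos, h0]
    | succ m =>
      have h1 : ((ω m : ℕ) + 1) * h m ≤ q m * h m := Nat.mul_le_mul_right _ (ω m).2
      have h2 := sh_lt (hh m) (-X m (ω m)) (pos q h X ω m)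
      rw [add_mul, one_mul] at h1
      simp only [pos]; rw [hs]; omega
  have hpr : ∀ m ω, pos q h X ω m = pr (h m) (X m) (pos q h X ω (m + 1)) := fun m ω => by
    simp only [pos]
    rw [pr_blk' (hh m) _ _ (sh_lt (hh m) _ _), sh_sh (hh m), neg_add_cancel, sh_zero (hlt m ω)]
  have hcyl : ∀ m i, i < h m → ∃ d : ∀ m, Fin (q m), ∀ ω, pos q h X ω m = i ↔ ∀ k < m, ω k = d k := by
    intro m
    induction m with
    | zero => exact fun i hi => ⟨fun m => ⟨0, hq m⟩, fun ω => by simp [pos]; omega⟩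
    | succ m ih =>
      intro i hi
      obtain ⟨k, r, hr, rfl⟩ : ∃ k r, r < h m ∧ i = k * h m + r :=
        ⟨i / h m, i % h m, Nat.mod_lt _ (hh m), (Nat.div_add_mod' i _).symm⟩
      have hk : k < q m := by
        by_contra hc
        have := Nat.mul_le_mul_right (h m) (not_lt.1 hc)
        rw [hs] at hi; omega
      obtain ⟨d, hd⟩ := ih (sh (h m) (X m k) r) (sh_lt (hh m) _ _)
      refine ⟨Function.update d m ⟨k, hk⟩, fun ω => ⟨fun e k' hk' => ?_, fun e => ?_⟩⟩
      · rcases Nat.lt_succ_iff_lt_or_eq.1 hk' with h1 | rfl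
        · rw [Function.update_of_ne h1.ne]
          exact (hd ω).1 (by rw [hpr, e, pr_blk' (hh m) _ _ hr]) k' h1
        · rw [Function.update_self]
          simp only [pos] at e
          have := blk_inj (h := h k') (k := (ω k' : ℕ)) (k' := k) (a' := r)
            (a := sh (h k') (-X k' (ω k')) (pos q h X ω k')) (by positivity)
            (by exact_mod_cast sh_lt (hh k') _ _) (by positivity) (by exact_mod_cast hr)
            (by exact_mod_cast e)
          exact Fin.ext (by exact_mod_cast this)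
      · have h1 := (hd ω).2 fun k' hk' => by rw [e k' (by omega), Function.update_of_ne hk'.ne]
        have h2 := e m (by omega)
        rw [Function.update_self] at h2
        simp only [pos]
        rw [h1, h2, sh_sh (hh m), add_neg_cancel, sh_zero hr]
  have hm : ∀ m, Measurable fun ω => pos q h X ω m := by
    intro m
    induction m with
    | zero => exact measurable_const
    | succ m ih =>
      exact (measurable_of_countable (fun p : Fin (q m) × ℕ =>
        p.1 * h m + sh (h m) (-X m p.1) p.2)).comp ((measurable_pi_apply m).prodMk ih)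
  have hu : ∀ m i, i < h m → P ((fun ω => pos q h X ω m) ⁻¹' {i}) = (h m : ENNReal)⁻¹ := by
    intro m i hi
    obtain ⟨d, hd⟩ := hcyl m i hi
    have e : (fun ω => pos q h X ω m) ⁻¹' {i} = Set.pi (range m : Finset ℕ) fun k => {d k} := by
      ext ω; simp [hd]
    rw [e, hP, Measure.infinitePi_pi _ fun _ _ => measurableSet_singleton _]
    simp only [uniformOn_univ, Measure.count_singleton, Fintype.card_fin, one_div]
    clear hi hd e
    induction m with
    | zero => simp [h0]
    | succ m ih =>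
      rw [Finset.prod_range_succ, ih, hs, Nat.cast_mul, mul_comm,
        ENNReal.mul_inv (Or.inr (by simp)) (Or.inl (by simp))]
  have hm' : Measurable fun ω m => pos q h X ω m := measurable_pi_lambda _ hm
  refine ⟨P.map fun ω m => pos q h X ω m, Measure.isProbabilityMeasure_map hm'.aemeasurable, ?_,
    fun m i hi => ?_⟩
  swap
  · rw [Measure.map_apply hm' (measurable_pi_apply m (measurableSet_singleton i))]; exact hu m i hi
  refine (ae_map_iff hm'.aemeasurable good_meas).2 ?_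
  have : ∀ n : ℤ, ∀ᵐ ω ∂P, ∀ᶠ m in atTop, ω ∉ {ω | ¬Ins h n m (pos q h X ω (m + 1))} := by
    intro n
    refine ae_eventually_notMem (ne_top_of_le_ne_top (b := ∑' m : ℕ, (2 * n.natAbs : ℕ) * 2⁻¹ ^ m)
      ?_ (ENNReal.tsum_le_tsum fun m => ?_))
    · rw [ENNReal.tsum_mul_left, ENNReal.tsum_geometric]
      exact ENNReal.mul_ne_top (ENNReal.natCast_ne_top _) (by simp)
    · rw [unif P (hm (m + 1)) (hlt (m + 1)) (hu (m + 1)) fun j => ¬Ins h n m j]
      have h1 : ((range (h (m + 1))).filter fun j => ¬Ins h n m j).card ≤ q m * (2 * n.natAbs) := by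
        rw [Finset.card_filter, hs, sum_blocks]
        refine (Finset.sum_le_card_nsmul _ _ (2 * n.natAbs) fun k _ => ?_).trans (by simp)
        refine le_trans (le_of_eq ?_) (card_bad (h m) n)
        rw [Finset.card_filter]
        refine Finset.sum_congr rfl fun r hr => ?_
        simp only [Ins, Nat.mul_add_mod_self_right, Nat.mod_eq_of_lt (Finset.mem_range.1 hr)]
      have h2 : (h m : ENNReal)⁻¹ ≤ 2⁻¹ ^ m := by
        rw [← ENNReal.inv_pow]; exact ENNReal.inv_le_inv.2 (by exact_mod_cast hg m)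
      calc _ ≤ ((q m * (2 * n.natAbs) : ℕ) : ENNReal) * (h (m + 1) : ENNReal)⁻¹ := by gcongr
        _ = (2 * n.natAbs : ℕ) * (h m : ENNReal)⁻¹ := by
          rw [hs, Nat.cast_mul, Nat.cast_mul (q m), ENNReal.mul_inv (Or.inr (by simp))
            (Or.inl (by simp)), mul_mul_mul_comm, ENNReal.mul_inv_cancel (by simpa using (hq m).ne')
            (by simp), one_mul]
        _ ≤ _ := by gcongr
  filter_upwards [ae_all_iff.2 this] with ω hω
  exact ⟨fun m => ⟨hlt m ω, hpr m ω⟩, fun n => (hω n).mono fun m hm => not_not.1 hm⟩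

lemma cons_down (m M : ℕ) : ∃ F : ℕ → ℕ, m ≤ M → ∀ x, Cons h X x → x m = F (x M) := by
  by_cases hm : m ≤ M
  · induction M, hm using Nat.le_induction with
    | base => exact ⟨id, fun _ _ _ => rfl⟩
    | succ M hM ih =>
      obtain ⟨F, hF⟩ := ih
      exact ⟨fun j => F (pr (h M) (X M) j), fun _ x hx => by rw [hF hM x hx, (hx M).2]⟩
  · exact ⟨id, fun h => absurd h hm⟩

lemma cons_ext {x y : ℕ → ℕ} (hx : Cons h X x) (hy : Cons h X y) (e : ∀ᶠ m in atTop, x m = y m) :
    x = y := by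
  ext m
  obtain ⟨M, h1, h2⟩ := (e.and (eventually_ge_atTop m)).exists
  obtain ⟨F, hF⟩ := cons_down (h := h) (X := X) m M
  rw [hF h2 x hx, hF h2 y hy, h1]

lemma exists_shift (hs : ∀ m, h (m + 1) = q m * h m) (hh : ∀ m, 0 < h m) (n : ℤ) (x : Good h X) :
    ∃ y : Good h X, ∀ᶠ m in atTop, y.1 m = sh (h m) n (x.1 m) := by
  obtain ⟨x, hx, hx'⟩ := x
  obtain ⟨M, hM⟩ := eventually_atTop.1 (hx' n)
  let dn : ℕ → ℕ := fun d => Nat.rec (sh (h M) n (x M))
    (fun d j => pr (h (M - d - 1)) (X (M - d - 1)) j) d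
  let y : ℕ → ℕ := fun m => if M ≤ m then sh (h m) n (x m) else dn (M - m)
  have h1 : ∀ m, M ≤ m → y m = sh (h m) n (x m) := fun m hm => if_pos hm
  have h2 : ∀ m, m ≤ M → y m = dn (M - m) := fun m hm => by
    rcases hm.eq_or_lt with rfl | hm
    · rw [h1 m le_rfl, Nat.sub_self]; rfl
    · exact if_neg hm.not_ge
  have h3 := fun m hm => pr_sh (X m) (hs m ▸ (hx (m + 1)).1) (hM m hm).1 (hM m hm).2
  have h4 : ∀ m, y m = pr (h m) (X m) (y (m + 1)) := fun m => by
    rcases le_or_gt M m with hm | hm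
    · rw [h1 m hm, h1 (m + 1) (by omega), hs, (h3 m hm).1, ← (hx m).2]
    · rw [h2 m hm.le, h2 (m + 1) hm, show M - m = M - (m + 1) + 1 by omega]
      have : M - (M - (m + 1)) - 1 = m := by omega
      simp only [dn, this]
  refine ⟨⟨y, fun m => ⟨by rw [h4]; exact pr_lt (hh m) _ _, h4 m⟩, fun n' => ?_⟩,
    (eventually_ge_atTop M).mono h1⟩
  filter_upwards [hx' (n + n'), eventually_ge_atTop M] with m hm hm'
  unfold Ins at hm ⊢
  rw [h1 (m + 1) (by omega), hs, (h3 m hm').2, add_assoc]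
  exact hm

theorem system (X : ℕ → ℕ → ℕ) (h0 : h 0 = 1) (hs : ∀ m, h (m + 1) = q m * h m)
    (hg : ∀ m, 2 ^ m ≤ h m) :
    ∃ (S : Type) (_ : MeasurableSpace S) (_ : StandardBorelSpace S) (μ : Measure S)
      (_ : IsProbabilityMeasure μ) (T : S ≃ᵐ S) (J : ℕ → S → ℕ),
      (∀ x, μ {x} = 0) ∧ (∀ m, Measurable (J m)) ∧ (∀ m x, J m x < h m) ∧
      (∀ m x, J m x = pr (h m) (X m) (J (m + 1) x)) ∧
      (∀ m i, i < h m → μ (J m ⁻¹' {i}) = (h m : ENNReal)⁻¹) ∧
      (∀ n : ℤ, MeasurePreserving ⇑(T.toEquiv ^ n) μ μ) ∧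
      (∀ (n : ℤ) x, ∀ᶠ M in atTop, J M ((T.toEquiv ^ n) x) = sh (h M) n (J M x)) ∧
      ∀ g : S → ℂ, Integrable g μ → (∀ m i, ∫ x in J m ⁻¹' {i}, g x ∂μ = 0) → g =ᵐ[μ] 0 := by
  classical
  have hh : ∀ m, 0 < h m := fun m => lt_of_lt_of_le (by positivity) (hg m)
  obtain ⟨μ0, _, hae, hu0⟩ := base (X := X) h0 hs hg
  have hemb : MeasurableEmbedding (Subtype.val : Good h X → ℕ → ℕ) :=
    MeasurableEmbedding.subtype_coe good_meas
  set μ : Measure (Good h X) := μ0.comap Subtype.val with hμ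
  have hprob : IsProbabilityMeasure μ := hemb.isProbabilityMeasure_comap (by simpa using hae)
  set J : ℕ → Good h X → ℕ := fun m x => x.1 m with hJ
  have hJm : ∀ m, Measurable (J m) := fun m => (measurable_pi_apply m).comp measurable_subtype_coe
  have hlt : ∀ m x, J m x < h m := fun m x => (x.2.1 m).1
  have hu : ∀ m i, i < h m → μ (J m ⁻¹' {i}) = (h m : ENNReal)⁻¹ := fun m i hi => by
    rw [← hu0 m i hi, ← Measure.measure_inter_eq_of_ae hae, Set.inter_comm]
    have := hemb.comap_preimage μ0 ((fun x => x m) ⁻¹' {i})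
    rw [Subtype.range_coe] at this
    exact this
  choose A hA using exists_shift (X := X) hs hh
  have A0 : ∀ x, A 0 x = x := fun x => Subtype.ext (cons_ext (A 0 x).2.1 x.2.1
    ((hA 0 x).mono fun m hm => by rw [hm, sh_zero (x.2.1 m).1]))
  have Aadd : ∀ n n' x, A n' (A n x) = A (n + n') x := fun n n' x =>
    Subtype.ext (cons_ext (A _ _).2.1 (A _ _).2.1 (by
      filter_upwards [hA n' (A n x), hA n x, hA (n + n') x] with m h1 h2 h3
      rw [h1, h2, h3, sh_sh (hh m)]))
  choose F hF using cons_down (h := h) (X := X)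
  have hev : ∀ n m x, ∀ᶠ M in atTop, F m M (sh (h M) n (J M x)) = J m (A n x) := fun n m x => by
    filter_upwards [hA n x, eventually_ge_atTop m] with M h1 h2
    simp only [hJ]
    rw [hF m M h2 _ (A n x).2.1, h1]
  have hfm : ∀ n m M, Measurable fun x => F m M (sh (h M) n (J M x)) := fun n m M =>
    (measurable_from_top (f := fun j => F m M (sh (h M) n j))).comp (hJm M)
  have hAm : ∀ n, Measurable (A n) := fun n =>
    Measurable.subtype_mk (measurable_pi_lambda _ fun m => measurable_of_tendsto_metrizable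
      (hfm n m) (tendsto_pi_nhds.2 fun x => tendsto_const_nhds.congr' ((hev n m x).mono
        fun _ h => h.symm)))
  set C : Set (Set (Good h X)) := {s | ∃ m i, s = J m ⁻¹' {i}} with hC
  have hgen : (inferInstance : MeasurableSpace (Good h X)) = MeasurableSpace.generateFrom C := by
    refine le_antisymm ?_ (MeasurableSpace.generateFrom_le ?_)
    · refine Measurable.comap_le (f := Subtype.val) ?_
      exact @measurable_pi_lambda _ _ _ (MeasurableSpace.generateFrom C) _ _ fun m =>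
        @measurable_to_countable' _ _ _ _ (MeasurableSpace.generateFrom C) _ fun i =>
          MeasurableSpace.measurableSet_generateFrom ⟨m, i, rfl⟩
    · rintro _ ⟨m, i, rfl⟩; exact hJm m (measurableSet_singleton i)
  have hpi : IsPiSystem C := by
    have : ∀ m i M j, m ≤ M → (J m ⁻¹' {i} ∩ J M ⁻¹' {j}).Nonempty →
        J m ⁻¹' {i} ∩ J M ⁻¹' {j} = J M ⁻¹' {j} := by
      rintro m i M j hm ⟨x, hx1, hx2⟩
      refine Set.inter_eq_right.2 fun y hy => ?_
      simp only [Set.mem_preimage, Set.mem_singleton_iff, hJ] at hx1 hx2 hy ⊢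
      rw [hF m M hm _ y.2.1, hy, ← hx2, ← hF m M hm _ x.2.1, hx1]
    rintro _ ⟨m, i, rfl⟩ _ ⟨M, j, rfl⟩ hne
    rcases le_total m M with hm | hm
    · exact ⟨M, j, this m i M j hm hne⟩
    · rw [Set.inter_comm] at hne ⊢; exact ⟨m, i, this M j m i hm hne⟩
  have hAp : ∀ n, MeasurePreserving (A n) μ μ := fun n => ⟨hAm n, by
    have := Measure.isProbabilityMeasure_map (μ := μ) (hAm n).aemeasurable
    refine ext_of_generate_finite C hgen hpi ?_ (by simp)
    rintro _ ⟨m, i, rfl⟩
    rw [Measure.map_apply (hAm n) (hJm m (measurableSet_singleton i))]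
    refine tendsto_nhds_unique (tendsto_measure_of_tendsto_indicator_of_isFiniteMeasure atTop μ
      (As := fun M => {x | F m M (sh (h M) n (J M x)) = i})
      (fun M => hfm n m M (measurableSet_singleton i))
      fun x => (hev n m x).mono fun M hM => by simp [hM]) (tendsto_const_nhds.congr' ?_)
    filter_upwards [eventually_ge_atTop m] with M hM
    have e : J m ⁻¹' {i} = {x | F m M (J M x) = i} := by
      ext x; simp only [Set.mem_preimage, Set.mem_singleton_iff, hJ, Set.mem_ofPred_eq]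
      rw [hF m M hM _ x.2.1]
    rw [e, unif μ (hJm M) (hlt M) (hu M) fun j => F m M j = i,
      unif μ (hJm M) (hlt M) (hu M) fun j => F m M (sh (h M) n j) = i, Finset.card_filter,
      Finset.card_filter, sum_sh (hh M) n fun j => if F m M j = i then 1 else 0]⟩
  let T : Good h X ≃ᵐ Good h X :=
    { toFun := A 1, invFun := A (-1), left_inv := fun x => by rw [Aadd]; exact A0 x,
      right_inv := fun x => by rw [Aadd]; exact A0 x,
      measurable_toFun := hAm 1, measurable_invFun := hAm (-1) }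
  have hT : ∀ n : ℤ, ⇑(T.toEquiv ^ n) = A n := by
    intro n
    induction n using Int.induction_on with
    | zero => ext1 x; exact (A0 x).symm
    | succ n ih => ext1 x; rw [zpow_add_one, Equiv.Perm.mul_apply, ih, add_comm, ← Aadd]; rfl
    | pred n ih =>
      ext1 x; rw [zpow_sub_one, Equiv.Perm.mul_apply, ih, sub_eq_neg_add, ← Aadd]; rfl
  refine ⟨Good h X, inferInstance, good_meas.standardBorel, μ, hprob, T, J, fun x => ?_, hJm, hlt,
    fun m x => (x.2.1 m).2, hu, fun n => hT n ▸ hAp n, fun n x => hT n ▸ hA n x,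
    fun g hg1 hg2 => hg1.ae_eq_zero_of_forall_setIntegral_eq_zero fun s hs' _ => ?_⟩
  · refine le_antisymm (ge_of_tendsto' (ENNReal.tendsto_pow_atTop_nhds_zero_of_lt_one
      (r := 2⁻¹) (by simp)) fun m => ?_) bot_le
    refine (measure_mono (μ := μ) (t := J m ⁻¹' {J m x}) (Set.singleton_subset_iff.2 rfl)).trans ?_
    rw [hu m _ (hlt m x), ← ENNReal.inv_pow]
    exact ENNReal.inv_le_inv.2 (by exact_mod_cast hg m)
  · refine MeasurableSpace.induction_on_inter (C := fun s _ => ∫ x in s, g x ∂μ = 0) hgen hpi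
      (by simp) ?_ (fun t ht h1 => ?_) (fun f hd hf h1 => ?_) s hs'
    · rintro _ ⟨m, i, rfl⟩; exact hg2 m i
    · have h2 := hg2 0 0
      have h3 : J 0 ⁻¹' {0} = Set.univ := by
        ext x; have := hlt 0 x; simp; omega
      rw [h3, setIntegral_univ] at h2
      rw [setIntegral_compl ht hg1, h1, h2, sub_zero]
    · rw [integral_iUnion hf hd hg1.integrableOn]; simp [h1]

end Vale.Agent.P130
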