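import Vale.Agent.P130.Step
import Vale.Agent.P130.Sys

/-! Choice of the parameters of the tower. -/

namespace Vale.Agent.P130

open Real Finset Vale.Agent.P110

/-- The centred normalised indicator of the last position. -/
noncomputable def gn (h : ℕ) (j : ℕ) : ℂ := (if j = h - 1 then (√h : ℂ) else 0) - 1 / √h

/-- The defect of one step. -/
noncomputable def dif (q h : ℕ) (X : ℕ → ℕ) (u : ℝ → ℂ) (c : ℕ → ℂ) : ℝ :=
  I2 fun t => FT (q * h) (fun j => c (pr h X j)) t / √(q * h : ℕ) - u t * (FT h c t / √h)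

lemma dif_eq (q : ℕ) {h : ℕ} (hh : 0 < h) (X : ℕ → ℕ) (u : ℝ → ℂ) (c : ℕ → ℂ) : dif q h X u c =
    I2 (fun t => FT (q * h) (fun j => c (pr h X j)) t / √q - u t * FT h c t) / h := by
  have h0 : (0:ℝ) < h := by exact_mod_cast hh
  have e : ‖(1 / √h : ℂ)‖ ^ 2 = 1 / h := by
    rw [norm_div, norm_one, Complex.norm_real, Real.norm_eq_abs, div_pow, sq_abs,
      Real.sq_sqrt h0.le, one_pow]
  rw [div_eq_inv_mul, ← one_div, ← e, ← I2_const_mul]
  unfold dif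
  congr 1; ext t
  rw [Nat.cast_mul, Real.sqrt_mul (by positivity)]; push_cast; ring

lemma pr_sum {h : ℕ} (hh : 0 < h) (X : ℕ → ℕ) {c : ℕ → ℂ} (hc : ∑ j ∈ range h, c j = 0) (k : ℕ) :
    ∑ j ∈ range (k * h), c (pr h X j) = 0 := by
  rw [sum_blocks]
  refine Finset.sum_eq_zero fun k _ => ?_
  rw [Finset.sum_congr rfl fun r hr => by rw [pr_blk' hh X k (Finset.mem_range.1 hr)], sum_sh hh, hc]

lemma pr_part {h : ℕ} (hh : 0 < h) (X : ℕ → ℕ) {c : ℕ → ℂ} (hc : ∑ j ∈ range h, c j = 0) {B : ℝ}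
    (hB : ∀ j, ‖c j‖ ≤ B) (a : ℕ) : ‖∑ j ∈ range a, c (pr h X j)‖ ≤ h * B := by
  rw [← Nat.div_add_mod' a h, Finset.sum_range_add, pr_sum hh X hc, zero_add]
  refine (norm_sum_le _ _).trans ((Finset.sum_le_card_nsmul _ _ B fun j _ => hB _).trans ?_)
  rw [Finset.card_range, nsmul_eq_mul]
  exact mul_le_mul_of_nonneg_right (by exact_mod_cast (Nat.mod_lt a hh).le)
    ((norm_nonneg _).trans (hB 0))

lemma gn_part {h : ℕ} (hh : 0 < h) {a : ℕ} (ha : a ≤ h) :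
    ∑ j ∈ range a, gn h j = if a = h then 0 else ((-(a / √h) : ℝ) : ℂ) := by
  have h0 : (0:ℝ) < h := by exact_mod_cast hh
  have h1 : ((√h : ℝ) : ℂ) ≠ 0 := by exact_mod_cast (Real.sqrt_pos.2 h0).ne'
  have h2 : ((√h : ℝ) : ℂ) * √h = h := by exact_mod_cast Real.mul_self_sqrt h0.le
  unfold gn
  rw [Finset.sum_sub_distrib, Finset.sum_ite_eq', Finset.sum_const, Finset.card_range, nsmul_eq_mul]
  split_ifs with h3 h4 h4
  · rw [h4]; field_simp; linear_combination h2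
  · rw [Finset.mem_range] at h3; omega
  · rw [Finset.mem_range] at h3; omega
  · push_cast; ring

lemma gn_sum {h : ℕ} (hh : 0 < h) : ∑ j ∈ range h, gn h j = 0 := by rw [gn_part hh le_rfl, if_pos rfl]

lemma gn_small {h j : ℕ} (hj : j ≠ h - 1) : ‖gn h j‖ = 1 / √h := by
  unfold gn; rw [if_neg hj]; simp

lemma gn_le {h : ℕ} (hh : 0 < h) (j : ℕ) : ‖gn h j‖ ≤ √h := by
  have h1 : (1:ℝ) ≤ √h := Real.one_le_sqrt.2 (by exact_mod_cast hh)
  have h2 : 1 / √h ≤ 1 := (div_le_one (by linarith)).2 h1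
  have h3 : 0 < 1 / √h := by positivity
  by_cases hj : j = h - 1
  · have : gn h j = ((√h - 1 / √h : ℝ) : ℂ) := by unfold gn; rw [if_pos hj]; push_cast; rfl
    rw [this, Complex.norm_real, Real.norm_eq_abs, abs_le]; constructor <;> linarith
  · rw [gn_small hj]; linarith

lemma gn_energy {h : ℕ} (hh : 0 < h) : ∑ j ∈ range h, ‖gn h j‖ ^ 2 ≤ 2 * h := by
  have h0 : (1:ℝ) ≤ h := by exact_mod_cast hh
  obtain ⟨n, rfl⟩ : ∃ n, h = n + 1 := ⟨h - 1, by omega⟩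
  rw [Finset.sum_range_succ]
  have h1 := pow_le_pow_left₀ (norm_nonneg _) (gn_le hh n) 2
  rw [Real.sq_sqrt (by positivity)] at h1
  have h2 : ∑ j ∈ range n, ‖gn (n + 1) j‖ ^ 2 ≤ n := by
    refine (Finset.sum_le_card_nsmul _ _ 1 fun j hj => ?_).trans (by simp)
    rw [gn_small (by have := Finset.mem_range.1 hj; omega), div_pow, Real.sq_sqrt (by positivity),
      one_pow, div_le_one (by positivity)]
    exact h0
  push_cast at h1 ⊢; linarith

theorem params : ∃ (q h : ℕ → ℕ) (X : ℕ → ℕ → ℕ) (u : ℕ → ℝ → ℂ), h 0 = 1 ∧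
    (∀ m, h (m + 1) = q m * h m) ∧ (∀ m, 2 ^ m ≤ h m) ∧ (∀ m, BM (u m)) ∧ (∀ m t, ‖u m t‖ = 1) ∧
    (∀ m (c : ℕ → ℂ) (B : ℝ), (∀ j, ‖c j‖ ≤ B) → ∑ j ∈ range (h m), c j = 0 →
      dif (q (m + 1)) (h (m + 1)) (X (m + 1)) (u (m + 1)) (fun j => c (pr (h m) (X m) j)) ≤
        400 * (B ^ 2 / h m) / 4 ^ m) ∧
    ∀ m, dif (q (m + 1)) (h (m + 1)) (X (m + 1)) (u (m + 1)) (gn (h (m + 1))) ≤ 400 / 4 ^ m := by
  choose! N0 hN0 using fun h s hh hs => @step h s hh hs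
  choose! X u hu1 hu2 hu3 using hN0
  let p : ℕ → ℕ × ℕ := fun m => Nat.rec (1, 1)
    (fun m a => (8 ^ (N0 a.1 (2 * a.2) + 2 * m + a.1 + 1) * a.1, N0 a.1 (2 * a.2) + 2 * m + a.1 + 1)) m
  obtain ⟨h, hh⟩ : ∃ h : ℕ → ℕ, ∀ m, h m = (p m).1 := ⟨_, fun _ => rfl⟩
  obtain ⟨t, ht⟩ : ∃ t : ℕ → ℕ, ∀ m, t m = (p m).2 := ⟨_, fun _ => rfl⟩
  have h0 : h 0 = 1 := hh 0
  have t1 : ∀ m, t (m + 1) = N0 (h m) (2 * t m) + 2 * m + h m + 1 := fun m => by
    simp only [hh, ht]; rfl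
  have h1 : ∀ m, h (m + 1) = 8 ^ t (m + 1) * h m := fun m => by simp only [hh, ht]; rfl
  have t0 : ∀ m, 0 < 2 * t m := fun m => by
    cases m with
    | zero => rw [ht]; norm_num [p]
    | succ m => rw [t1]; omega
  clear hh ht
  have hg : ∀ m, 2 ^ m ≤ h m := fun m => by
    induction m with
    | zero => simp [h0]
    | succ m ih =>
      rw [h1, pow_succ, mul_comm]
      refine Nat.mul_le_mul (le_trans (by norm_num) (Nat.pow_le_pow_right (by norm_num) (?_ : 1 ≤ _))) ih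
      rw [t1]; omega
  have hp : ∀ m, 0 < h m := fun m => lt_of_lt_of_le (by positivity) (hg m)
  have hN : ∀ m, N0 (h m) (2 * t m) ≤ 8 ^ t (m + 1) := fun m =>
    le_trans (by rw [t1]; omega) (Nat.lt_pow_self (by norm_num)).le
  have hz : ∀ m, ∃ z : ℝ, 4 ^ m * h m ≤ z ∧ 2 ≤ z ∧ (2:ℝ) ^ (2 * t (m + 1)) = z ^ 2 ∧
      (h (m + 1) : ℝ) = z ^ 3 * h m ∧ 2 ^ (2 * t (m + 1)) < h (m + 1) := fun m => by
    refine ⟨2 ^ t (m + 1), ?_, ?_, by rw [← pow_mul, mul_comm], by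
      rw [h1, ← pow_mul, mul_comm _ 3, pow_mul]; norm_num, ?_⟩
    · have a1 : h m ≤ 2 ^ h m := (Nat.lt_pow_self (by norm_num)).le
      have a2 : 2 ^ (2 * m + h m) ≤ 2 ^ t (m + 1) := Nat.pow_le_pow_right (by norm_num) (by rw [t1]; omega)
      rw [pow_add, pow_mul] at a2
      exact_mod_cast (Nat.mul_le_mul_left _ a1).trans a2
    · have : (2:ℝ) ^ 1 ≤ 2 ^ t (m + 1) := pow_le_pow_right₀ (by norm_num) (by rw [t1]; omega)
      linarith
    · rw [h1, pow_mul]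
      exact lt_of_lt_of_le (Nat.pow_lt_pow_left (by norm_num) (by rw [t1]; omega))
        (Nat.le_mul_of_pos_right _ (hp m))
  refine ⟨fun m => 8 ^ t (m + 1), h, fun m => X (h m) (2 * t m) (8 ^ t (m + 1)),
    fun m => u (h m) (2 * t m) (8 ^ t (m + 1)), h0, h1, hg, fun m => hu1 _ _ (hp m) (t0 m) _ (hN m),
    fun m => hu2 _ _ (hp m) (t0 m) _ (hN m), fun m c B hB hc => ?_, fun m => ?_⟩
  · obtain ⟨z, z1, z2, z3, z4, z5⟩ := hz m
    have H : (1:ℝ) ≤ h m := by exact_mod_cast hp m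
    have F : (1:ℝ) ≤ 4 ^ m := one_le_pow₀ (by norm_num)
    have hE : ∑ j ∈ range (h (m + 1)), ‖c (pr (h m) (X (h m) (2 * t m) (8 ^ t (m + 1))) j)‖ ^ 2 ≤
        h (m + 1) * B ^ 2 := (Finset.sum_le_card_nsmul _ _ (B ^ 2) fun j _ =>
      pow_le_pow_left₀ (norm_nonneg _) (hB _) 2).trans (by simp)
    have := hu3 _ _ (hp (m + 1)) (t0 (m + 1)) _ (hN (m + 1)) z5.le _ B (h m * B) (fun j _ => hB _)
      (by rw [h1]; exact pr_sum (hp m) _ hc _) fun a _ =>
        pr_part (hp m) (X (h m) (2 * t m) (8 ^ t (m + 1))) hc hB a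
    rw [dif_eq _ (hp _), div_le_iff₀ (by exact_mod_cast hp _)]
    refine this.trans ?_
    rw [z3, z4] at *
    generalize (4:ℝ) ^ m = A at *
    generalize (h m : ℝ) = H' at *
    have z0 : 0 < z := by linarith
    have a1 : A * H' ^ 3 ≤ z ^ 3 := le_trans (by
      rw [mul_pow]; gcongr; exact le_self_pow₀ F (by norm_num)) (pow_le_pow_left₀ (by positivity) z1 3)
    have a2 : A ≤ z := by nlinarith
    have b1 : z ^ 2 * B ^ 2 ≤ B ^ 2 * z ^ 3 / A := by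
      rw [le_div_iff₀ (by positivity)]
      have := mul_le_mul_of_nonneg_left a2 (by positivity : 0 ≤ z ^ 2 * B ^ 2)
      linarith
    have b2 : z ^ 3 * H' * (H' * B / z ^ 2) ^ 2 ≤ B ^ 2 * z ^ 3 / A := by
      have : z ^ 3 * H' * (H' * B / z ^ 2) ^ 2 = B ^ 2 * H' ^ 3 / z := by field_simp
      rw [this, div_le_div_iff₀ z0 (by positivity)]
      have := mul_le_mul_of_nonneg_left a1 (sq_nonneg B)
      have := mul_le_mul_of_nonneg_left z2 (by positivity : 0 ≤ B ^ 2 * z ^ 3)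
      have : 0 ≤ B ^ 2 * z ^ 3 := by positivity
      nlinarith
    have b3 : z ^ 3 * H' * B ^ 2 / (z ^ 2) ^ 2 ≤ z ^ 3 * H' * (H' * B / z ^ 2) ^ 2 := by
      rw [div_pow, mul_div_assoc, mul_pow]
      gcongr
      exact le_mul_of_one_le_left (sq_nonneg _) (one_le_pow₀ H)
    have b4 := div_le_div_of_nonneg_right hE (by positivity : 0 ≤ (z ^ 2) ^ 2)
    have e : 400 * (B ^ 2 / H') / A * (z ^ 3 * H') = 400 * (B ^ 2 * z ^ 3 / A) := by field_simp
    have : 0 ≤ B ^ 2 * z ^ 3 / A := by positivity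
    linarith
  · obtain ⟨z, z1, z2, z3, z4, z5⟩ := hz m
    have H : (1:ℝ) ≤ h m := by exact_mod_cast hp m
    have F : (1:ℝ) ≤ 4 ^ m := one_le_pow₀ (by norm_num)
    have H1 : (0:ℝ) < h (m + 1) := by exact_mod_cast hp _
    have hs := Real.sqrt_pos.2 H1
    have := hu3 _ _ (hp (m + 1)) (t0 (m + 1)) _ (hN (m + 1)) z5.le (gn (h (m + 1))) (1 / √(h (m + 1)))
      √(h (m + 1)) (fun j hj => (gn_small (by omega)).le) (gn_sum (hp _)) fun a ha => by
        rw [gn_part (hp _) ha]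
        split_ifs
        · simp
        · rw [Complex.norm_real, Real.norm_eq_abs, abs_neg, abs_of_nonneg (by positivity),
            div_le_iff₀ hs, Real.mul_self_sqrt H1.le]
          exact_mod_cast ha
    rw [dif_eq _ (hp _), div_le_iff₀ H1]
    refine this.trans ?_
    have hE := gn_energy (hp (m + 1))
    rw [div_pow, div_pow, Real.sq_sqrt H1.le, z3]
    rw [z4] at *
    generalize (4:ℝ) ^ m = A at *
    generalize (h m : ℝ) = H' at *
    have z0 : 0 < z := by linarith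
    have a2 : A ≤ z := by nlinarith
    have b2 : z ^ 3 * H' * (z ^ 3 * H' / (z ^ 2) ^ 2) ≤ z ^ 3 * H' / A := by
      have : z ^ 3 * H' * (z ^ 3 * H' / (z ^ 2) ^ 2) = z ^ 3 * H' * H' / z := by field_simp
      rw [this, div_le_div_iff₀ z0 (by positivity)]
      have := mul_le_mul_of_nonneg_left z1 (by positivity : 0 ≤ z ^ 3 * H')
      linarith
    have a3 : (1:ℝ) ≤ z ^ 3 * H' := one_le_mul_of_one_le_of_one_le (one_le_pow₀ (by linarith)) H
    have b1 : z ^ 2 * (1 ^ 2 / (z ^ 3 * H')) ≤ z ^ 3 * H' / A := by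
      have h2 : z ^ 2 * (1 ^ 2 / (z ^ 3 * H')) ≤ z ^ 2 := mul_le_of_le_one_right (by positivity)
        (by rw [one_pow, div_le_one (by positivity)]; exact a3)
      refine h2.trans ?_
      rw [le_div_iff₀ (by positivity)]
      have := mul_le_mul_of_nonneg_left a2 (by positivity : 0 ≤ z ^ 2)
      have := mul_le_mul_of_nonneg_left H (by positivity : 0 ≤ z ^ 3)
      linarith
    have b3 : 2 * (z ^ 3 * H') / (z ^ 2) ^ 2 ≤ 2 * (z ^ 3 * H' * (z ^ 3 * H' / (z ^ 2) ^ 2)) := by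
      rw [mul_div_assoc]
      exact mul_le_mul_of_nonneg_left (le_mul_of_one_le_left (by positivity) a3) (by norm_num)
    have b4 := div_le_div_of_nonneg_right hE (by positivity : 0 ≤ (z ^ 2) ^ 2)
    have e : 400 / A * (z ^ 3 * H') = 400 * (z ^ 3 * H' / A) := by field_simp
    have : 0 ≤ z ^ 3 * H' / A := by positivity
    linarith

end Vale.Agent.P130
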