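import Vale.Agent.P130.Hilb
import Vale.Agent.P130.Par

/-! Functions of one level and the approximate spectral maps. -/

namespace Vale.Agent.P130

open Finset MeasureTheory Filter Topology Vale.Agent.P110

/-- Uniformly distributed positions. -/
structure Tw {S : Type} [MeasurableSpace S] (μ : Measure S) (h : ℕ → ℕ) (J : ℕ → S → ℕ) : Prop where
  pos : ∀ m, 0 < h m
  meas : ∀ m, Measurable (J m)
  lt : ∀ m x, J m x < h m
  unif : ∀ m i, i < h m → μ (J m ⁻¹' {i}) = (h m : ENNReal)⁻¹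

variable {S : Type} [MeasurableSpace S] {μ : Measure S} [IsProbabilityMeasure μ] {h : ℕ → ℕ}
  {J : ℕ → S → ℕ} (W : Tw μ h J)

include W

lemma Tw.memLp (m : ℕ) (c : ℕ → ℂ) (p : ENNReal) : MemLp (fun x => c (J m x)) p μ :=
  MemLp.of_bound ((measurable_from_top (f := c)).comp (W.meas m)).aestronglyMeasurable
    (∑ j ∈ range (h m), ‖c j‖) (Eventually.of_forall fun x =>
      Finset.single_le_sum (f := fun j => ‖c j‖) (fun _ _ => norm_nonneg _)
        (Finset.mem_range.2 (W.lt m x)))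

lemma Tw.real (m : ℕ) {i : ℕ} (hi : i < h m) : μ.real (J m ⁻¹' {i}) = (h m : ℝ)⁻¹ := by
  simp [Measure.real, W.unif m i hi]

lemma Tw.integral (m : ℕ) (c : ℕ → ℂ) : ∫ x, c (J m x) ∂μ = (∑ j ∈ range (h m), c j) / h m := by
  have e : ∀ x, c (J m x) = ∑ j ∈ range (h m), (J m ⁻¹' {j}).indicator (fun _ => c j) x := by
    intro x
    rw [Finset.sum_eq_single (J m x)]
    · simp
    · intro j _ hj; exact Set.indicator_of_notMem (fun h => hj (Eq.symm h)) _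
    · intro h; exact absurd (Finset.mem_range.2 (W.lt m x)) h
  simp_rw [e]
  rw [integral_finsetSum _ fun j _ => (integrable_const _).indicator
    (W.meas m (measurableSet_singleton j)), Finset.sum_div]
  refine Finset.sum_congr rfl fun j hj => ?_
  rw [integral_indicator_const _ (W.meas m (measurableSet_singleton j)),
    W.real m (Finset.mem_range.1 hj), Complex.real_smul]
  push_cast; ring

/-- A function of the position at one level. -/
noncomputable def Tw.lv (m : ℕ) (c : ℕ → ℂ) : Lp ℂ 2 μ := (W.memLp m c 2).toLp _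

lemma Tw.lv_coe (m : ℕ) (c : ℕ → ℂ) : W.lv m c =ᵐ[μ] fun x => c (J m x) := MemLp.coeFn_toLp _

lemma Tw.lv_inner (m : ℕ) (c c' : ℕ → ℂ) : inner ℂ (W.lv m c) (W.lv m c') =
    (∑ j ∈ range (h m), c' j * (starRingEnd ℂ) (c j)) / h m := by
  rw [inner_eq (W.lv_coe m c) (W.lv_coe m c'), W.integral m fun j => c' j * (starRingEnd ℂ) (c j)]

lemma Tw.lv_norm (m : ℕ) (c : ℕ → ℂ) : ‖W.lv m c‖ ^ 2 = (∑ j ∈ range (h m), ‖c j‖ ^ 2) / h m := by
  apply Complex.ofReal_injective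
  have := W.lv_inner m c c
  rw [inner_self_eq_norm_sq_to_K] at this
  simp_rw [Complex.mul_conj, Complex.normSq_eq_norm_sq] at this
  push_cast at this ⊢
  exact this

lemma Tw.lv_add (m : ℕ) (c c' : ℕ → ℂ) : W.lv m (fun j => c j + c' j) = W.lv m c + W.lv m c' :=
  MemLp.toLp_add (W.memLp m c 2) (W.memLp m c' 2)

lemma Tw.lv_smul (m : ℕ) (a : ℂ) (c : ℕ → ℂ) : W.lv m (fun j => a * c j) = a • W.lv m c :=
  MemLp.toLp_const_smul a (W.memLp m c 2)

/-- The normalised indicator of a position. -/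
noncomputable def Tw.aa (m j : ℕ) : Lp ℂ 2 μ := W.lv m fun i => if i = j then (√(h m) : ℂ) else 0

lemma Tw.aa_inner (m : ℕ) {j : ℕ} (hj : j < h m) (c : ℕ → ℂ) :
    inner ℂ (W.aa m j) (W.lv m c) = c j / √(h m) := by
  have h0 : (0:ℝ) < h m := by exact_mod_cast W.pos m
  have h1 : ((√(h m) : ℝ) : ℂ) ≠ 0 := by exact_mod_cast (Real.sqrt_pos.2 h0).ne'
  have h2 : ((√(h m) : ℝ) : ℂ) * √(h m) = h m := by exact_mod_cast Real.mul_self_sqrt h0.le
  rw [Tw.aa, W.lv_inner, Finset.sum_eq_single j (fun i _ hi => by simp [hi])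
    (fun h => absurd (Finset.mem_range.2 hj) h), if_pos rfl, Complex.conj_ofReal, ← h2]
  field_simp

lemma Tw.aa_orth (m : ℕ) : Orthonormal ℂ fun j : Fin (h m) => W.aa m j := by
  have h0 : (0:ℝ) < h m := by exact_mod_cast W.pos m
  have h1 : ((√(h m) : ℝ) : ℂ) ≠ 0 := by exact_mod_cast (Real.sqrt_pos.2 h0).ne'
  rw [orthonormal_iff_ite]
  intro i j
  nth_rewrite 2 [Tw.aa]
  rw [W.aa_inner m i.2]
  by_cases e : i = j
  · simp [e, h1]
  · simp [e, Fin.val_inj]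

/-- The approximate spectral map. -/
noncomputable def Tw.Ph {U : ℝ → ℂ} (hU : BM U) (m : ℕ) : Lp ℂ 2 μ →L[ℂ] KK :=
  ∑ j ∈ range (h m), (innerSL ℂ (W.aa m j)).smulRight (tl (hU.mul (ee_BM j)))

lemma Tw.Ph_coe {U : ℝ → ℂ} (hU : BM U) (m : ℕ) (g : Lp ℂ 2 μ) :
    W.Ph hU m g =ᵐ[volume.restrict (Set.Ioc (0:ℝ) 1)]
      fun t => U t * FT (h m) (fun j => inner ℂ (W.aa m j) g) t := by
  simp only [Tw.Ph, _root_.sum_apply, ContinuousLinearMap.smulRight_apply, innerSL_apply_apply]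
  filter_upwards [Lp.coeFn_finsetSum (range (h m)) fun j : ℕ => inner ℂ (W.aa m j) g •
    tl (hU.mul (ee_BM j)), ae_all_iff.2 fun j : ℕ => Lp.coeFn_smul (inner ℂ (W.aa m j) g)
    (tl (hU.mul (ee_BM j))), ae_all_iff.2 fun j : ℕ => tl_coe (hU.mul (ee_BM j))] with t h1 h2 h3
  rw [h1, Finset.sum_apply, FT, Finset.mul_sum]
  refine Finset.sum_congr rfl fun j _ => ?_
  rw [h2, Pi.smul_apply, h3, smul_eq_mul, Int.cast_natCast]; ring

omit W in
lemma I2_uni {U : ℝ → ℂ} (h1 : ∀ t, ‖U t‖ = 1) (f : ℝ → ℂ) : I2 (fun t => U t * f t) = I2 f := by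
  simp [I2, h1]

lemma Tw.Ph_le {U : ℝ → ℂ} (hU : BM U) (h1 : ∀ t, ‖U t‖ = 1) (m : ℕ) (g : Lp ℂ 2 μ) :
    ‖W.Ph hU m g‖ ≤ ‖g‖ := by
  refine norm_KK_le (W.Ph_coe hU m g) (norm_nonneg _) ?_
  rw [I2_uni h1, I2_FT, Finset.sum_range]
  exact (W.aa_orth m).sum_inner_products_le g

lemma Tw.Ph_lv {U : ℝ → ℂ} (hU : BM U) (m : ℕ) (c : ℕ → ℂ) :
    W.Ph hU m (W.lv m c) =ᵐ[volume.restrict (Set.Ioc (0:ℝ) 1)]
      fun t => U t * (FT (h m) c t / √(h m)) := by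
  refine (W.Ph_coe hU m _).trans (Eventually.of_forall fun t => ?_)
  simp only [FT, Finset.sum_div]
  congr 1
  refine Finset.sum_congr rfl fun j hj => ?_
  rw [W.aa_inner m (Finset.mem_range.1 hj)]; ring

omit W in
lemma I2_div (f : ℝ → ℂ) (n : ℕ) : I2 (fun t => f t / √n) = I2 f / n := by
  simp only [I2, norm_div, div_pow, Complex.norm_real, Real.norm_eq_abs, sq_abs,
    Real.sq_sqrt (Nat.cast_nonneg n), intervalIntegral.integral_div]

lemma Tw.Ph_norm {U : ℝ → ℂ} (hU : BM U) (h1 : ∀ t, ‖U t‖ = 1) (m : ℕ) (c : ℕ → ℂ) :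
    ‖W.Ph hU m (W.lv m c)‖ = ‖W.lv m c‖ := by
  rw [← pow_left_inj₀ (norm_nonneg _) (norm_nonneg _) two_ne_zero, norm_KK (W.Ph_lv hU m c),
    I2_uni h1, I2_div, I2_FT, W.lv_norm]

omit W in
lemma FT_sh {h : ℕ} (hh : 0 < h) (n : ℤ) {c : ℕ → ℂ} {B : ℝ} (hB : ∀ j, ‖c j‖ ≤ B) (t : ℝ) :
    ‖FT h (fun j => c (sh h n j)) t - ee ((-n : ℤ) * t) * FT h c t‖ ≤ 2 * n.natAbs * (2 * B) := by
  have hB0 : 0 ≤ B := (norm_nonneg _).trans (hB 0)
  rw [FT, FT, ← sum_sh hh n fun j => c j * ee (j * t), Finset.mul_sum, ← Finset.sum_sub_distrib,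
    ← Finset.sum_filter_of_ne (p := fun j : ℕ => ¬(0 ≤ j + n ∧ j + n < h)) fun j _ hj e => hj (by
      have h1 : (sh h n j : ℝ) = j + n := by exact_mod_cast sh_in e.1 e.2
      rw [h1, mul_left_comm, ← ee_add, sub_eq_zero]; congr 2; push_cast; ring)]
  refine (norm_sum_le _ _).trans ((Finset.sum_le_card_nsmul _ _ (2 * B) fun j _ =>
    (norm_sub_le _ _).trans ?_).trans ?_)
  · simp only [norm_mul, norm_ee]; linarith [hB (sh h n j)]
  · rw [nsmul_eq_mul]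
    exact mul_le_mul_of_nonneg_right (by exact_mod_cast card_bad h n) (by positivity)

lemma Tw.Ph_sh {U : ℝ → ℂ} (hU : BM U) (h1 : ∀ t, ‖U t‖ = 1) (m : ℕ) (n : ℤ) {c : ℕ → ℂ} {B : ℝ}
    (hB : ∀ j, ‖c j‖ ≤ B) :
    ‖W.Ph hU m (W.lv m fun j => c (sh (h m) n j)) - mop (ee_BM (-n)) (W.Ph hU m (W.lv m c))‖ ^ 2 ≤
      (2 * n.natAbs * (2 * B)) ^ 2 / h m := by
  rw [norm_KK (f := fun t => U t * ((FT (h m) (fun j => c (sh (h m) n j)) t -
    ee ((-n : ℤ) * t) * FT (h m) c t) / √(h m))) (by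
      filter_upwards [Lp.coeFn_sub (W.Ph hU m (W.lv m fun j => c (sh (h m) n j)))
        (mop (ee_BM (-n)) (W.Ph hU m (W.lv m c))), W.Ph_lv hU m c, W.Ph_lv hU m fun j =>
        c (sh (h m) n j), mop_coe (ee_BM (-n)) (W.Ph hU m (W.lv m c))] with t h2 h3 h4 h5
      rw [h2, Pi.sub_apply, h4, h5, h3]; ring), I2_uni h1, I2_div]
  refine div_le_div_of_nonneg_right ?_ (by positivity)
  have := I2_mul_le ((FT_BM _ _).sub ((ee_BM (-n)).mul (FT_BM _ _))) (BM.const 1)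
    (FT_sh (W.pos m) n hB)
  simpa [I2] using this

lemma Tw.Ph_gn {U : ℝ → ℂ} (hU : BM U) (h1 : ∀ t, ‖U t‖ = 1) (m : ℕ) :
    ‖W.Ph hU m (W.lv m (gn (h m))) - tl (hU.mul (ee_BM (h m - 1 : ℕ)))‖ ^ 2 = 1 / h m := by
  have h0 : (0:ℝ) < h m := by exact_mod_cast W.pos m
  have h2 : ((√(h m) : ℝ) : ℂ) ≠ 0 := by exact_mod_cast (Real.sqrt_pos.2 h0).ne'
  rw [norm_KK (f := fun t => U t * (FT (h m) (fun _ => -(1 / √(h m))) t / √(h m))) (by
      filter_upwards [Lp.coeFn_sub (W.Ph hU m (W.lv m (gn (h m)))) (tl (hU.mul (ee_BM (h m - 1 : ℕ)))),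
        W.Ph_lv hU m (gn (h m)), tl_coe (hU.mul (ee_BM (h m - 1 : ℕ)))] with t h3 h4 h5
      have : FT (h m) (gn (h m)) t = √(h m) * ee ((h m - 1 : ℕ) * t) +
          FT (h m) (fun _ => -(1 / √(h m))) t := by
        simp only [FT, gn, sub_eq_add_neg, add_mul, Finset.sum_add_distrib, ite_mul, zero_mul]
        rw [Finset.sum_ite_eq', if_pos (Finset.mem_range.2 (by have := W.pos m; omega))]
      rw [h3, Pi.sub_apply, h4, h5, this, Int.cast_natCast]; field_simp; ring), I2_uni h1, I2_div,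
    I2_FT]
  simp [Real.sq_sqrt h0.le, h0.ne']

end Vale.Agent.P130
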