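import Vale.Agent.P130.Level

/-! Assembly: the limit spectral map. -/

namespace Vale.Agent.P130

open Finset MeasureTheory Filter Topology Vale.Agent.P110

set_option maxHeartbeats 1000000 in
theorem main : ∃ (S : Type) (_ : MeasurableSpace S) (_ : StandardBorelSpace S) (μ : Measure S)
    (_ : IsProbabilityMeasure μ) (T : S ≃ᵐ S), (∀ x, μ {x} = 0) ∧ MeasurePreserving T μ μ ∧
    ∃ f : S → ℂ, MemLp f 2 μ ∧ ∫ x, f x ∂μ = 0 ∧
      (∀ n m : ℤ, ∫ x, f ((T.toEquiv ^ n) x) * (starRingEnd ℂ) (f ((T.toEquiv ^ m) x)) ∂μ =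
        if n = m then 1 else 0) ∧
      ∀ g : S → ℂ, MemLp g 2 μ → ∫ x, g x ∂μ = 0 →
        (∀ n : ℤ, ∫ x, g x * (starRingEnd ℂ) (f ((T.toEquiv ^ n) x)) ∂μ = 0) → g =ᵐ[μ] 0 := by
  classical
  obtain ⟨q, h, X, u, h0, hs, hg, hub, hu1, est1, est2⟩ := params
  obtain ⟨S, _, _, μ, _, T, J, hat, hJm, hlt, hpr, hun, hmp, hev, hgen⟩ := system X h0 hs hg
  have hh : ∀ m, 0 < h m := fun m => lt_of_lt_of_le (by positivity) (hg m)
  have hh' : ∀ m, (0:ℝ) < h m := fun m => by exact_mod_cast hh m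
  have hmono : Monotone h := monotone_nat_of_le_succ fun m => by
    rw [hs]; exact Nat.le_mul_of_pos_left _ (Nat.pos_of_mul_pos_right (hs m ▸ hh (m + 1)))
  have hg' : ∀ m, 1 / (h m : ℝ) ≤ (1 / 2) ^ m := fun m => by
    rw [one_div_pow]; exact one_div_le_one_div_of_le (by positivity) (by exact_mod_cast hg m)
  have W : Tw μ h J := ⟨hh, hJm, hlt, hun⟩
  refine ⟨S, inferInstance, inferInstance, μ, inferInstance, T, hat, by simpa using hmp 1, ?_⟩
  obtain ⟨U, hUb, hU1, hUs⟩ : ∃ U : ℕ → ℝ → ℂ, (∀ m, BM (U m)) ∧ (∀ m t, ‖U m t‖ = 1) ∧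
      ∀ m t, U (m + 1) t = U m t * (starRingEnd ℂ) (u m t) := by
    refine ⟨fun m t => ∏ i ∈ range m, (starRingEnd ℂ) (u i t), fun m => ?_, fun m t => by simp [hu1],
      fun m t => Finset.prod_range_succ _ _⟩
    induction m with
    | zero => simpa using BM.const 1
    | succ m ih => simp only [Finset.prod_range_succ]; exact ih.mul (hub m).conj
  set Φ : ℕ → Lp ℂ 2 μ →L[ℂ] KK := fun m => W.Ph (hUb m) m with hΦ
  have lv_up : ∀ m (c : ℕ → ℂ), W.lv m c = W.lv (m + 1) fun j => c (pr (h m) (X m) j) :=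
    fun m c => MemLp.toLp_congr _ _ (Eventually.of_forall fun x => by simp only [← hpr])
  have hstep : ∀ m c, ‖Φ (m + 1) (W.lv m c) - Φ m (W.lv m c)‖ ^ 2 = dif (q m) (h m) (X m) (u m) c := by
    intro m c
    rw [norm_KK (f := fun t => U (m + 1) t * (FT (q m * h m) (fun j => c (pr (h m) (X m) j)) t /
      √(q m * h m : ℕ) - u m t * (FT (h m) c t / √(h m)))), I2_uni (hU1 _), dif]
    have := W.Ph_lv (hUb (m + 1)) (m + 1) fun j => c (pr (h m) (X m) j)
    rw [← lv_up, hs] at this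
    filter_upwards [Lp.coeFn_sub (Φ (m + 1) (W.lv m c)) (Φ m (W.lv m c)), this,
      W.Ph_lv (hUb m) m c] with t h1 h2 h3
    have h4 : (starRingEnd ℂ) (u m t) * u m t = 1 := by
      rw [mul_comm, Complex.mul_conj, Complex.normSq_eq_norm_sq, hu1]; simp
    rw [h1, Pi.sub_apply, h2, h3, hUs]
    linear_combination (U m t * (FT (h m) c t / √(h m))) * h4
  set P : Lp ℂ 2 μ → ℕ → ℝ → Prop := fun g m B =>
    ∃ c : ℕ → ℂ, (∀ j, ‖c j‖ ≤ B) ∧ ∑ j ∈ range (h m), c j = 0 ∧ g = W.lv m c with hP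
  have Pm : ∀ g n B, P g n B → ∀ m, n ≤ m → P g m B := by
    intro g n B hg m hm
    induction m, hm using Nat.le_induction with
    | base => exact hg
    | succ m _ ih =>
      obtain ⟨c, h1, h2, h3⟩ := ih
      exact ⟨fun j => c (pr (h m) (X m) j), fun j => h1 _, by rw [hs]; exact pr_sum (hh m) _ h2 _,
        h3.trans (lv_up m c)⟩
  have Pest : ∀ g n B, P g n B → ∀ k, dist (Φ (k + (n + 1)) g) (Φ (k + 1 + (n + 1)) g) ≤
      20 * (B / √(h n)) * (1 / 2) ^ n * (1 / 2) ^ k := by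
    intro g n B hg k
    obtain ⟨c, h1, h2, h3⟩ := Pm g n B hg (k + n) (by omega)
    have hB : 0 ≤ B := (norm_nonneg _).trans (h1 0)
    have h4 := est1 (k + n) c B h1 h2
    rw [← hstep, ← lv_up, ← h3] at h4
    rw [dist_comm, dist_eq_norm, show k + 1 + (n + 1) = k + n + 1 + 1 by ring, ← add_assoc]
    refine (pow_le_pow_iff_left₀ (norm_nonneg _) (by positivity) two_ne_zero).1 (h4.trans ?_)
    have h5 : B ^ 2 / h (k + n) ≤ B ^ 2 / h n := div_le_div_of_nonneg_left (by positivity) (hh' n)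
      (by exact_mod_cast hmono (by omega))
    have e : (20 * (B / √(h n)) * (1 / 2) ^ n * (1 / 2) ^ k) ^ 2 = 400 * (B ^ 2 / h n) / 4 ^ (k + n) := by
      rw [mul_assoc, ← pow_add, mul_pow, mul_pow, div_pow, Real.sq_sqrt (hh' n).le, ← pow_mul,
        mul_comm _ 2, pow_mul, one_div_pow, one_div_pow, add_comm n]
      norm_num [div_eq_mul_inv]
    rw [e]; gcongr
  set one := W.lv 0 fun _ => 1 with hone
  have hone' : ∀ g : Lp ℂ 2 μ, inner ℂ one g = ∫ x, g x ∂μ := fun g => by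
    rw [inner_eq (W.lv_coe 0 _) (ae_eq_refl _)]; simp
  set H0 : Submodule ℂ (Lp ℂ 2 μ) := (ℂ ∙ one)ᗮ with hH0
  have mem0 : ∀ g : Lp ℂ 2 μ, g ∈ H0 ↔ ∫ x, g x ∂μ = 0 := fun g => by
    rw [hH0, Submodule.mem_orthogonal_singleton_iff_inner_right, hone']
  have P0 : ∀ g n B, P g n B → g ∈ H0 := by
    rintro g n B ⟨c, -, h2, rfl⟩
    rw [mem0, integral_congr_ae (W.lv_coe n c), W.integral, h2, zero_div]
  let D0 : Submodule ℂ (Lp ℂ 2 μ) :=
    { carrier := {g | ∃ n B, P g n B}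
      add_mem' := by
        rintro a b ⟨n, B, ha⟩ ⟨n', B', hb⟩
        obtain ⟨c, h1, h2, h3⟩ := Pm _ _ _ ha _ (le_max_left n n')
        obtain ⟨c', h4, h5, h6⟩ := Pm _ _ _ hb _ (le_max_right n n')
        exact ⟨max n n', B + B', fun j => c j + c' j, fun j => norm_add_le_of_le (h1 j) (h4 j),
          by rw [Finset.sum_add_distrib, h2, h5, add_zero], by rw [W.lv_add, h3, h6]⟩
      zero_mem' := ⟨0, 0, fun _ => 0 * 0, by simp, by simp, by rw [W.lv_smul, zero_smul]⟩
      smul_mem' := by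
        rintro a g ⟨n, B, c, h1, h2, h3⟩
        exact ⟨n, ‖a‖ * B, fun j => a * c j, fun j => norm_mul_le_of_le le_rfl (h1 j),
          by rw [← Finset.mul_sum, h2, mul_zero], by rw [W.lv_smul, h3]⟩ }
  set D : Set H0 := {g | ∃ n B, P g n B} with hD
  have hDd : Dense D := by
    rw [Subtype.dense_iff]
    intro g hg
    refine closure_mono (s := D0) (fun k hk => ?_) ?_
    · obtain ⟨n, B, hk⟩ := hk
      exact ⟨⟨k, P0 _ _ _ hk⟩, ⟨n, B, hk⟩, rfl⟩
    rw [← Submodule.topologicalClosure_coe, ← Submodule.orthogonal_orthogonal_eq_closure,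
      SetLike.mem_coe, Submodule.mem_orthogonal]
    intro k hk
    have hki : Integrable k μ := (Lp.memLp k).integrable one_le_two
    have h1 := hgen (fun x => k x - ∫ x, k x ∂μ) (hki.sub (integrable_const _)) fun m i => by
      by_cases hi : i < h m
      · have hm := hJm m (measurableSet_singleton i)
        have h2 := (Submodule.mem_orthogonal _ _).1 hk (W.lv m fun j => (if j = i then 1 else 0) -
          1 / h m) ⟨m, 1 + ‖(1 / h m : ℂ)‖, _, fun j => norm_sub_le_of_le (by split_ifs <;> simp)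
            le_rfl, by simp [hi, (hh m).ne'], rfl⟩
        rw [inner_eq (W.lv_coe _ _) (ae_eq_refl _), integral_congr_ae (g := fun x =>
          (J m ⁻¹' {i}).indicator k x - (h m : ℂ)⁻¹ * k x) (Eventually.of_forall fun x => by
            by_cases e : J m x = i <;> simp [e] <;> ring), integral_sub (hki.indicator hm)
          (hki.const_mul _), integral_indicator hm, integral_const_mul] at h2
        rw [integral_sub hki.integrableOn (integrable_const _), setIntegral_const, W.real m hi,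
          Complex.real_smul]
        push_cast; exact h2
      · have : J m ⁻¹' {i} = ∅ := Set.eq_empty_of_forall_notMem fun x hx => hi (hx ▸ hlt m x)
        simp [this]
    rw [inner_eq (f := fun _ => ∫ x, k x ∂μ) (h1.mono fun x hx => sub_eq_zero.1 hx) (ae_eq_refl _),
      integral_mul_const, (mem0 g).1 hg, zero_mul]
  have hΦc : ∀ m g, ‖Φ m g‖ ≤ ‖g‖ := fun m g => W.Ph_le (hUb m) (hU1 m) m g
  obtain ⟨Ψ, hΨ⟩ := lim_op (fun m => (Φ m).comp H0.subtypeL) (fun m g => hΦc m g) hDd (by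
    rintro g ⟨n, B, hg⟩
    exact (cauchySeq_shift (n + 1)).1 (cauchySeq_of_le_geometric _ _ (by norm_num) (Pest _ n B hg)))
  replace hΨ : ∀ g : H0, Tendsto (fun m => Φ m g) atTop (𝓝 (Ψ g)) := hΨ
  have hiso : ∀ g, ‖Ψ g‖ = ‖g‖ := congrFun (Continuous.ext_on hDd (by fun_prop) (by fun_prop) (by
    rintro g ⟨n, B, hg⟩
    refine tendsto_nhds_unique (hΨ g).norm (tendsto_const_nhds.congr' ?_)
    filter_upwards [eventually_ge_atTop n] with m hm
    obtain ⟨c, -, -, h3⟩ := Pm _ _ _ hg m hm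
    rw [h3, W.Ph_norm (hUb m) (hU1 m), ← h3]; rfl))
  set V : ℤ → Lp ℂ 2 μ →ₗᵢ[ℂ] Lp ℂ 2 μ := fun n => Lp.compMeasurePreservingₗᵢ ℂ _ (hmp n) with hV
  have hVc : ∀ n (g : Lp ℂ 2 μ), V n g =ᵐ[μ] fun x => g ((T.toEquiv ^ n) x) := fun n g =>
    Lp.coeFn_compMeasurePreserving g (hmp n)
  have hVl : ∀ n m c, V n (W.lv m c) =ᵐ[μ] fun x => c (J m ((T.toEquiv ^ n) x)) := fun n m c =>
    (hVc n _).trans ((hmp n).quasiMeasurePreserving.ae_eq_comp (W.lv_coe m c))
  have hV0 : ∀ n, ∀ g : H0, V n g ∈ H0 := fun n g => by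
    have : V n one = one := Lp.ext ((hVl n 0 _).trans (W.lv_coe 0 fun _ => 1).symm)
    rw [mem0, ← hone', ← this, LinearIsometry.inner_map_map, hone']
    exact (mem0 _).1 g.2
  have hint : ∀ (n : ℤ) (g : H0), Ψ ⟨V n g, hV0 n g⟩ = mop (ee_BM (-n)) (Ψ g) := fun n =>
    congrFun (Continuous.ext_on hDd (f := fun g : H0 => Ψ ⟨V n g, hV0 n g⟩) (by fun_prop)
      (by fun_prop) (by
    rintro g ⟨n0, B, hg⟩
    choose! c h1 h2 h3 using Pm _ _ _ hg
    refine tendsto_nhds_unique (hΨ _) ?_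
    have t1 : Tendsto (fun m => V n g - W.lv m fun j => c m (sh (h m) n j)) atTop (𝓝 0) := by
      rw [tendsto_zero_iff_norm_tendsto_zero]
      have t2 : Tendsto (fun m => ∫ x, ‖c m (J m ((T.toEquiv ^ n) x)) - c m (sh (h m) n (J m x))‖ ^ 2
          ∂μ) atTop (𝓝 (∫ _ : S, (0:ℝ) ∂μ)) := by
        refine tendsto_integral_filter_of_dominated_convergence (fun _ => (B + B) ^ 2)
          (Eventually.of_forall fun m => Measurable.aestronglyMeasurable ?_) ?_ (integrable_const _)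
          (Eventually.of_forall fun x => tendsto_const_nhds.congr' ((hev n x).mono fun m hm => by
            simp [hm]))
        · exact ((((measurable_from_top (f := c m)).comp ((hJm m).comp (hmp n).measurable)).sub
            ((measurable_from_top (f := fun j => c m (sh (h m) n j))).comp (hJm m))).norm).pow_const 2
        · filter_upwards [eventually_ge_atTop n0] with m hm
          refine Eventually.of_forall fun x => ?_
          rw [Real.norm_eq_abs, abs_of_nonneg (by positivity)]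
          exact pow_le_pow_left₀ (norm_nonneg _) (norm_sub_le_of_le (h1 m hm _) (h1 m hm _)) 2
      have t3 := t2.sqrt
      rw [integral_zero, Real.sqrt_zero] at t3
      refine t3.congr' ?_
      filter_upwards [eventually_ge_atTop n0] with m hm
      rw [← norm_sq_eq (k := V n g - W.lv m fun j => c m (sh (h m) n j)), Real.sqrt_sq (norm_nonneg _)]
      filter_upwards [Lp.coeFn_sub (V n g) (W.lv m fun j => c m (sh (h m) n j)), hVl n m (c m),
        W.lv_coe m fun j => c m (sh (h m) n j)] with x h4 h5 h6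
      rw [h4, Pi.sub_apply, h6, h3 m hm, h5]
    have t4 : Tendsto (fun m => Φ m (V n g - W.lv m fun j => c m (sh (h m) n j))) atTop (𝓝 0) :=
      squeeze_zero_norm (fun m => hΦc m _) (tendsto_zero_iff_norm_tendsto_zero.1 t1)
    have t5 : Tendsto (fun m => Φ m (W.lv m fun j => c m (sh (h m) n j)) -
        mop (ee_BM (-n)) (Φ m g)) atTop (𝓝 0) := by
      have t6 := ((tendsto_pow_atTop_nhds_zero_of_lt_one (r := (1 / 2 : ℝ)) (by norm_num)
        (by norm_num)).const_mul ((2 * n.natAbs * (2 * B)) ^ 2)).sqrt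
      rw [mul_zero, Real.sqrt_zero] at t6
      refine squeeze_zero_norm' ?_ t6
      filter_upwards [eventually_ge_atTop n0] with m hm
      refine Real.le_sqrt_of_sq_le ?_
      rw [h3 m hm]
      refine (W.Ph_sh (hUb m) (hU1 m) m n (h1 m hm)).trans ?_
      rw [div_eq_mul_one_div]
      exact mul_le_mul_of_nonneg_left (hg' m) (by positivity)
    have t7 := (t4.add t5).add (((mop (ee_BM (-n))).continuous.tendsto _).comp (hΨ g))
    simpa using t7))
  let Ψi : H0 →ₗᵢ[ℂ] KK := ⟨Ψ.toLinearMap, hiso⟩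
  obtain ⟨f, hf⟩ := cyc (LinearMap.range Ψ.toLinearMap) Ψi.isometry.isClosedEmbedding.isClosed_range
    (by
      rintro n _ ⟨g, rfl⟩
      have := hint (-n) g
      rw [neg_neg] at this
      exact ⟨_, this⟩) (by
      intro ε hε
      obtain ⟨m, hm⟩ := exists_pow_lt_of_lt_one (lt_min (by positivity : 0 < ε / 120)
        (by positivity : 0 < (ε / 2) ^ 2)) (by norm_num : (1 / 2 : ℝ) < 1)
      have hPg : P (W.lv (m + 1) (gn (h (m + 1)))) (m + 1) √(h (m + 1)) :=
        ⟨_, gn_le (hh _), gn_sum (hh _), rfl⟩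
      refine ⟨_, (hUb (m + 1)).mul (ee_BM (h (m + 1) - 1 : ℕ)), fun t => by simp [hU1],
        Ψ ⟨_, P0 _ _ _ hPg⟩, ⟨_, rfl⟩, ?_⟩
      have b1 := dist_le_of_le_geometric_of_tendsto₀ _ _ (by norm_num) (Pest _ _ _ hPg)
        ((tendsto_add_atTop_iff_nat (m + 1 + 1)).2 (hΨ ⟨_, P0 _ _ _ hPg⟩))
      rw [div_self (Real.sqrt_pos.2 (hh' _)).ne', dist_comm, dist_eq_norm, zero_add, pow_succ] at b1
      have b2 := est2 m
      rw [← hstep] at b2
      have b3 := (pow_le_pow_iff_left₀ (norm_nonneg _) (by positivity : 0 ≤ 20 * (1 / 2 : ℝ) ^ m)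
        two_ne_zero).1 (b2.trans (le_of_eq (by
          rw [mul_pow, ← pow_mul, mul_comm _ 2, pow_mul, one_div_pow, one_div_pow]
          norm_num [div_eq_mul_inv])))
      have b4 := (W.Ph_gn (hUb (m + 1)) (hU1 _) (m + 1)).le.trans (hg' _)
      have p : (0:ℝ) < (1 / 2) ^ m := by positivity
      have b5 := (pow_le_pow_iff_left₀ (norm_nonneg _) (by positivity : 0 ≤ ε / 2) two_ne_zero).1
        (b4.trans (by rw [pow_succ]; linarith [min_le_right (ε / 120) ((ε / 2) ^ 2)]))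
      refine (norm_sub_le_norm_sub_add_norm_sub _ _ _).trans (le_trans (add_le_add b1
        ((norm_sub_le_norm_sub_add_norm_sub _ _ _).trans (add_le_add b3 b5))) ?_)
      rw [show (1 - 1 / 2 : ℝ) = 1 / 2 by norm_num, mul_div_assoc, mul_div_cancel_right₀ _ (by norm_num)]
      linarith [min_le_left (ε / 120) ((ε / 2) ^ 2)])
  have hfn : ∀ n, Ψi ⟨V n f, hV0 n f⟩ = tl (ee_BM (-n)) := fun n => by
    rw [← mop_one, ← hf]; exact hint n f
  refine ⟨f.1, Lp.memLp _, (mem0 _).1 f.2, fun n m => ?_, fun g hg1 hg2 hg3 => ?_⟩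
  · rw [← inner_eq (hVc m f) (hVc n f)]
    have := Ψi.inner_map_map ⟨V m f, hV0 m f⟩ ⟨V n f, hV0 n f⟩
    rw [hfn, hfn, inner_ee_ee] at this
    simpa using this.symm
  · have h1 : hg1.toLp g ∈ H0 := by rw [mem0, integral_congr_ae hg1.coeFn_toLp, hg2]
    have h2 : Ψi ⟨_, h1⟩ = 0 := ee_total fun n => by
      have := hfn (-n)
      rw [neg_neg] at this
      rw [← this, Ψi.inner_map_map, ← hg3 (-n)]
      exact inner_eq (hVc _ _) hg1.coeFn_toLp
    have h3 : hg1.toLp g = 0 := congrArg Subtype.val (Ψi.injective (h2.trans (map_zero _).symm))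
    exact hg1.coeFn_toLp.symm.trans (h3 ▸ Lp.coeFn_zero _ _ _)

end Vale.Agent.P130
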