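import Vale.Agent.P130.Block
import Vale.Agent.P130.Colour
import Vale.Agent.P130.Spread

/-! One step of the construction. -/

namespace Vale.Agent.P130

open Real Finset MeasureTheory intervalIntegral Vale.Agent.P110

lemma ee_fract (k h : ℕ) (t : ℝ) : ee (k * Int.fract (h * t)) = ee (k * (h * t)) :=
  ee_eq_of_sub_int (-(k * ⌊h * t⌋)) (by rw [Int.fract]; push_cast; ring)

set_option maxHeartbeats 1000000 in
theorem step {h s : ℕ} (hh : 0 < h) (hs : 0 < s) : ∃ N0 : ℕ, ∀ q : ℕ, N0 ≤ q →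
    ∃ (X : ℕ → ℕ) (u : ℝ → ℂ), BM u ∧ (∀ t, ‖u t‖ = 1) ∧ (2 ^ s ≤ h → ∀ (c : ℕ → ℂ) (B1 B2 : ℝ),
      (∀ j < 2 ^ s, ‖c j‖ ≤ B1) → ∑ j ∈ range h, c j = 0 → (∀ a ≤ h, ‖∑ j ∈ range a, c j‖ ≤ B2) →
      I2 (fun t => FT (q * h) (fun j => c (pr h X j)) t / √q - u t * FT h c t) ≤
        70 * (2 ^ s * B1 ^ 2 + h * (B2 / 2 ^ s) ^ 2 + (∑ j ∈ range h, ‖c j‖ ^ 2) / (2 ^ s) ^ 2)) := by
  classical
  have : Nonempty (Fin s ⊕ Fin s) := ⟨Sum.inl ⟨0, hs⟩⟩
  obtain ⟨x, X0, hx, hX0, hsp⟩ := spread hs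
  obtain ⟨l, hl⟩ : ∃ l : ℝ, l = 2 ^ s := ⟨_, rfl⟩
  have hl2 : 2 ≤ l := by
    have : (2:ℝ) ^ 1 ≤ 2 ^ s := pow_le_pow_right₀ (by norm_num) hs
    linarith
  have hl0 : 0 < l := by linarith
  have hlc : (2 ^ s : ℂ) = l := by rw [hl]; push_cast; rfl
  have hln : ((2 ^ s : ℕ) : ℝ) = l := by rw [hl]; push_cast; rfl
  have hl0' : (l : ℂ) ≠ 0 := by exact_mod_cast hl0.ne'
  have hh' : (1:ℝ) ≤ h := by exact_mod_cast hh
  obtain ⟨N0, hN0⟩ := colour (Fin s ⊕ Fin s) (δ := 1 / (h * l ^ 4)) (by positivity)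
  have hcard : (2:ℝ) ^ Fintype.card (Fin s ⊕ Fin s) = l ^ 2 := by
    rw [hl, Fintype.card_sum, Fintype.card_fin, pow_add, sq]
  rw [hcard] at hN0
  rw [← hl]
  refine ⟨N0 + 1, fun q hq => ?_⟩
  obtain ⟨ε, F, hε, hFb, hFn, hFd, hF⟩ := hN0 q (by omega)
  have hq0 : (0:ℝ) < q := by exact_mod_cast (by omega : 0 < q)
  have hsq : 0 < √q := Real.sqrt_pos.2 hq0
  have hsq' : ((√q : ℝ) : ℂ) ≠ 0 := by exact_mod_cast hsq.ne'
  set A : Finset (Finset (Fin s ⊕ Fin s)) := univ.erase ∅ with hA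
  have hAc : (A.card : ℝ) = l ^ 2 - 1 := by
    rw [hA, Finset.card_erase_of_mem (Finset.mem_univ _), Finset.card_univ, Fintype.card_finset,
      Nat.cast_sub Nat.one_le_two_pow, ← hcard]; push_cast; rfl
  have hAn : ∀ S ∈ A, S.Nonempty := fun S hS =>
    Finset.nonempty_iff_ne_empty.2 (Finset.ne_of_mem_erase hS)
  have hΛ : 0 < l ^ 2 - 1 := by nlinarith
  have hτ : Measurable fun t : ℝ => Int.fract (h * t) := measurable_fract.comp (by fun_prop)
  set W : Finset (Fin s ⊕ Fin s) → ℝ → ℂ := fun S t => ee (-(x S * t)) * F S (Int.fract (h * t))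
    with hW
  have hWb : ∀ S, BM (W S) := fun S => (BM.ee (by fun_prop)).mul ((hFb S).comp hτ)
  have hWd : ∀ t S S', S ≠ S' → W S t = 0 ∨ W S' t = 0 := fun t S S' e =>
    (hFd S S' (Int.fract (h * t)) e).imp (fun h => by simp [hW, h]) fun h => by simp [hW, h]
  have hWn : ∀ t S, W S t = 0 ∨ ‖W S t‖ = 1 := fun t S =>
    (hFn S (Int.fract (h * t))).imp (fun h => by simp [hW, h]) fun h => by simp [hW, h]
  set U : ℝ → ℂ := fun t => ∑ S ∈ A, W S t with hU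
  have hUb : BM U := BM.sum _ fun S _ => hWb S
  have hUn : ∀ t, U t = 0 ∨ ‖U t‖ = 1 := fun t => disj_norm _ (hWd t) (hWn t) A
  have hU1 : ∀ t, ‖U t‖ ≤ 1 := fun t => by rcases hUn t with h | h <;> simp [h]
  have hUI : I2 (fun t => 1 - (‖U t‖ : ℂ)) ≤ 1 / (h * l ^ 4) := by
    have e1 : I2 (fun t => 1 - (‖U t‖ : ℂ)) = 1 - I2 U := by
      unfold I2
      rw [intervalIntegral.integral_congr (g := fun t => 1 - ‖U t‖ ^ 2) fun t _ => by
        rcases hUn t with h | h <;> simp [h], intervalIntegral.integral_sub (by simp) (hUb.ii2 _ _)]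
      simp
    have e2 : ∀ S, I2 (W S) = I2 (F S) := fun S => by
      rw [← I2_fract (hFb S) hh]; unfold I2; simp [hW]
    have e3 := Finset.card_nsmul_le_sum A (fun S => (l ^ 2 - 1) * I2 (F S)) _
      fun S hS => (hF S (hAn S hS)).1
    rw [← Finset.mul_sum, nsmul_eq_mul, hAc] at e3
    rw [e1, I2_disj W hWb hWd]
    simp_rw [e2]
    linarith [le_of_mul_le_mul_left e3 hΛ]
  refine ⟨fun k => X0 (ε k), fun t => U t + (1 - ‖U t‖), hUb.add ((BM.const 1).sub hUb.norm),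
    fun t => by rcases hUn t with h | h <;> simp [h], fun hlh c B1 B2 hB1 hc0 hB2 => ?_⟩
  set f := FT h c with hf
  have hfb : BM f := FT_BM h c
  obtain ⟨E, hE⟩ : ∃ E, E = ∑ j ∈ range h, ‖c j‖ ^ 2 := ⟨_, rfl⟩
  have hE0 : 0 ≤ E := by rw [hE]; positivity
  have hfE : I2 f = E := by rw [hE]; exact I2_FT h c
  have hfn : ∀ t, ‖f t‖ ≤ √(h * E) := fun t => Real.le_sqrt_of_sq_le (hE ▸ norm_FT_sq h c t)
  have hfI : ∀ g, BM g → I2 (fun t => f t * g t) ≤ h * E * I2 g := fun g hg => by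
    have := I2_mul_le hfb hg hfn
    rwa [Real.sq_sqrt (by positivity)] at this
  rw [← hE]
  set f' := FT h fun j => ∑ i ∈ range (j + 1), c i with hf'
  have hf'b : BM f' := FT_BM h _
  have hff : ∀ t, f t = (1 - ee t) * f' t := fun t => by
    rw [hf, abel, hc0, zero_mul, add_zero]
  have hE' : ∑ j ∈ range h, ‖∑ i ∈ range (j + 1), c i‖ ^ 2 ≤ h * B2 ^ 2 := by
    refine (Finset.sum_le_card_nsmul _ _ (B2 ^ 2) fun j hj => pow_le_pow_left₀ (norm_nonneg _)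
      (hB2 _ (Finset.mem_range.1 hj)) 2).trans (by simp)
  set nb : ℝ → ℂ := fun t => dir (2 ^ s) (-t) / l with hnb
  have hnbb : BM nb := (dir_BM _ (by fun_prop)).div_const _
  have hnb1 : ∀ t, ‖nb t‖ ≤ 1 := fun t => by
    simp only [hnb]
    rw [norm_div, Complex.norm_real, Real.norm_eq_abs, abs_of_pos hl0, div_le_one hl0, ← hln]
    exact norm_dir_le' _ _
  have hnb2 : ∀ t, ‖nb t * (1 - ee t)‖ ≤ 2 / l := fun t => by
    simp only [hnb]
    rw [div_mul_eq_mul_div, norm_div, Complex.norm_real, Real.norm_eq_abs, abs_of_pos hl0]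
    exact div_le_div_of_nonneg_right (norm_dir_mul _ _) hl0.le
  have hnb3 : BM fun t => nb t * (1 - ee t) := hnbb.mul ((BM.const 1).sub (BM.ee measurable_id))
  set g : ℕ → ℝ → ℂ := fun j t => ee (-(j * t)) - nb t with hg
  have hgb : ∀ j, BM (g j) := fun j => (BM.ee (by fun_prop)).sub hnbb
  have hg2 : ∀ j t, ‖g j t‖ ≤ 2 := fun j t => (norm_sub_le _ _).trans (by
    rw [norm_ee]; linarith [hnb1 t])
  have hg0 : ∀ t, ∑ j ∈ range (2 ^ s), g j t = 0 := fun t => by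
    simp only [hg, hnb, dir, mul_neg]
    rw [Finset.sum_sub_distrib, Finset.sum_const, Finset.card_range, nsmul_eq_mul]
    push_cast; rw [hlc, mul_div_cancel₀ _ hl0', sub_self]
  set D : ℝ → ℂ := fun t => dir q (h * t) with hD
  have hDb : BM D := dir_BM _ (by fun_prop)
  set R : Finset (Fin s ⊕ Fin s) → ℝ → ℂ := fun S t =>
    (∑ k ∈ range q, ((∏ j ∈ S, ε k j) / √q : ℝ) * ee (k * t)) - (√(l ^ 2 - 1) : ℝ) * F S t with hR
  have hRb : ∀ S, BM (R S) := fun S =>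
    (BM.sum _ fun _ _ => (BM.const _).mul (BM.ee (by fun_prop))).sub ((BM.const _).mul (hFb S))
  set V : ℝ → ℂ := fun t => ∑ S ∈ A, F S (Int.fract (h * t)) with hV
  have hVb : BM V := BM.sum _ fun S _ => (hFb S).comp hτ
  have hV1 : ∀ t, ‖V t‖ ≤ 1 := fun t => by
    rcases disj_norm _ (fun S S' => hFd S S' (Int.fract (h * t))) (fun S => hFn S _) A with h | h
    · simp [hV, h]
    · exact h.le
  obtain ⟨κ, hκ⟩ : ∃ κ : ℝ, κ = √(l ^ 2 - 1) / l := ⟨_, rfl⟩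
  have hκ0 : 1 - 1 / l ≤ κ := by
    rw [hκ, le_div_iff₀ hl0, sub_mul, one_div, inv_mul_cancel₀ hl0.ne', one_mul]
    exact Real.le_sqrt_of_sq_le (by nlinarith)
  have hκ1 : κ ≤ 1 := by
    rw [hκ, div_le_one hl0, Real.sqrt_le_left hl0.le]; linarith
  have hκ2 : 0 ≤ κ := by rw [hκ]; positivity
  have key : ∀ t, (∑ k ∈ range q, ee (k * (h * t)) * ee (-(X0 (ε k) * t))) / √q =
      nb t * D t / √q + g (x ∅) t * D t / (l * √q) +
        (∑ S ∈ A, g (x S) t * R S (Int.fract (h * t))) / l + κ * (U t - nb t * V t) := by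
    intro t
    have h1 : ∀ k, ee (-(X0 (ε k) * t)) = nb t +
        (g (x ∅) t + ∑ S ∈ A, g (x S) t * ((∏ j ∈ S, ε k j : ℝ) : ℂ)) / l := by
      intro k
      have := hsp (ε k) (hε k) (fun j => g j t) (hg0 t)
      rw [← Finset.add_sum_erase _ _ (Finset.mem_univ ∅), hlc] at this
      simp only [Finset.prod_empty, Complex.ofReal_one, mul_one] at this
      rw [← this]; simp only [hg]; field_simp; ring
    have h2 : ∑ S ∈ A, g (x S) t * R S (Int.fract (h * t)) =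
        (∑ k ∈ range q, ee (k * (h * t)) * ∑ S ∈ A, g (x S) t * ((∏ j ∈ S, ε k j : ℝ) : ℂ)) / √q -
        (√(l ^ 2 - 1) : ℝ) * (U t - nb t * V t) := by
      simp only [hR, hU, hV, hW, ee_fract, Finset.mul_sum, mul_sub, Finset.sum_sub_distrib,
        Finset.sum_div]
      rw [Finset.sum_comm, ← Finset.sum_sub_distrib (s := A)]
      congr 1
      · refine Finset.sum_congr rfl fun k _ => Finset.sum_congr rfl fun S _ => ?_
        push_cast; ring
      · refine Finset.sum_congr rfl fun S _ => ?_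
        simp only [hg]; ring
    simp_rw [h1]
    rw [h2, hκ]
    simp only [hD, dir, mul_add, add_div, Finset.sum_add_distrib, ← Finset.sum_mul, ← mul_div_assoc,
      ← Finset.sum_div]
    generalize ∑ k ∈ range q, ee (k * (h * t)) = Z1
    generalize ∑ k ∈ range q, ee (k * (h * t)) *
      ∑ S ∈ A, g (x S) t * ((∏ j ∈ S, ε k j : ℝ) : ℂ) = Z2
    push_cast; field_simp; ring
  have dec : ∀ t, FT (q * h) (fun j => c (pr h (fun k => X0 (ε k)) j)) t / √q -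
      (U t + (1 - ‖U t‖)) * f t =
      (1 / √q : ℂ) * (FT (q * h) (fun j => c (pr h (fun k => X0 (ε k)) j)) t -
        (∑ k ∈ range q, ee (k * (h * t)) * ee (-(X0 (ε k) * t))) * f t) +
      (1 / √q : ℂ) * ((nb t * (1 - ee t)) * (D t * f' t)) +
      (1 / (l * √q) : ℂ) * (g (x ∅) t * (D t * f t)) +
      (1 / l : ℂ) * (f t * ∑ S ∈ A, g (x S) t * R S (Int.fract (h * t))) +
      ((κ - 1 : ℝ) : ℂ) * (U t * f t) + (-κ : ℂ) * (V t * ((nb t * (1 - ee t)) * f' t)) +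
      (-1 : ℂ) * (f t * (1 - ‖U t‖)) := by
    intro t
    have := key t
    push_cast
    linear_combination f t * this + (nb t * D t / √q - κ * nb t * V t) * hff t
  simp_rw [dec]
  have hwb : BM fun t => FT (q * h) (fun j => c (pr h (fun k => X0 (ε k)) j)) t -
      (∑ k ∈ range q, ee (k * (h * t)) * ee (-(X0 (ε k) * t))) * f t :=
    (FT_BM _ _).sub ((BM.sum _ fun _ _ => (BM.ee (by fun_prop)).mul (BM.ee (by fun_prop))).mul hfb)
  have hsb : BM fun t => ∑ S ∈ A, g (x S) t * R S (Int.fract (h * t)) :=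
    BM.sum _ fun S _ => (hgb _).mul ((hRb S).comp hτ)
  refine (I2_seven ((BM.const _).mul hwb) ((BM.const _).mul (hnb3.mul (hDb.mul hf'b)))
    ((BM.const _).mul ((hgb _).mul (hDb.mul hfb))) ((BM.const _).mul (hfb.mul hsb))
    ((BM.const _).mul (hUb.mul hfb)) ((BM.const _).mul (hVb.mul (hnb3.mul hf'b)))
    ((BM.const _).mul (hfb.mul ((BM.const 1).sub hUb.norm)))).trans ?_
  simp only [I2_const_mul]
  have n1 : ‖(1 / √q : ℂ)‖ ^ 2 = 1 / q := by
    rw [norm_div, norm_one, Complex.norm_real, Real.norm_eq_abs, div_pow, sq_abs,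
      Real.sq_sqrt hq0.le, one_pow]
  have n2 : ‖(1 / (l * √q) : ℂ)‖ ^ 2 = 1 / (l ^ 2 * q) := by
    rw [norm_div, norm_one, norm_mul, Complex.norm_real, Complex.norm_real, Real.norm_eq_abs,
      Real.norm_eq_abs, div_pow, mul_pow, sq_abs, sq_abs, Real.sq_sqrt hq0.le, one_pow]
  have n3 : ‖(1 / l : ℂ)‖ ^ 2 = 1 / l ^ 2 := by
    rw [norm_div, norm_one, Complex.norm_real, Real.norm_eq_abs, div_pow, sq_abs, one_pow]
  have n4 : ‖((κ - 1 : ℝ) : ℂ)‖ ^ 2 ≤ 1 / l ^ 2 := by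
    rw [Complex.norm_real, Real.norm_eq_abs, ← one_pow 2, ← div_pow, one_pow]
    exact pow_le_pow_left₀ (abs_nonneg _) (abs_le.2 ⟨by linarith, by
      have : 0 < 1 / l := by positivity
      linarith⟩) 2
  have n5 : ‖(-κ : ℂ)‖ ^ 2 ≤ 1 := by
    rw [norm_neg, Complex.norm_real, Real.norm_eq_abs, sq_abs]; nlinarith
  have b0 := mul_le_mul_of_nonneg_left (wrap (q := q) (X := fun k => X0 (ε k)) (fun k => hX0 _) hlh c
    hB1) (by positivity : (0:ℝ) ≤ 1 / q)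
  have b1 := I2_mul_le hnb3 (hDb.mul hf'b) hnb2
  have b2 := I2_mul_le (hgb (x ∅)) (hDb.mul hfb) (hg2 _)
  have b3 : I2 (fun t => ∑ S ∈ A, g (x S) t * R S (Int.fract (h * t))) ≤ 4 / h := by
    refine (I2_sum_le A fun S _ => (hgb _).mul ((hRb S).comp hτ)).trans ?_
    have := Finset.sum_le_card_nsmul A (fun S => I2 fun t => g (x S) t * R S (Int.fract (h * t)))
      (2 ^ 2 * (1 / (h * l ^ 4))) fun S hS => (I2_mul_le (hgb _) ((hRb S).comp hτ) (hg2 _)).trans (by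
        rw [I2_fract (hRb S) hh]
        exact mul_le_mul_of_nonneg_left (hF S (hAn S hS)).2 (by norm_num))
    rw [nsmul_eq_mul] at this
    refine (mul_le_mul_of_nonneg_left this (by positivity)).trans ?_
    rw [hAc]
    calc _ ≤ l ^ 2 * (l ^ 2 * (2 ^ 2 * (1 / (h * l ^ 4)))) := by gcongr <;> linarith
      _ = _ := by field_simp; ring
  have b4 := I2_mul_le hUb hfb hU1
  have b5 := (I2_mul_le hVb (hnb3.mul hf'b) hV1).trans (mul_le_mul_of_nonneg_left
    (I2_mul_le hnb3 hf'b hnb2) (by norm_num))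
  have b6 := (hfI _ ((BM.const 1).sub hUb.norm)).trans (mul_le_mul_of_nonneg_left hUI (by positivity))
  rw [I2_dir_FT] at b1 b2
  rw [I2_FT] at b5
  rw [← hE] at b2
  rw [hfE] at b4
  rw [hln] at b0
  have c0 : 1 / (q:ℝ) * (4 * (q * (l * B1 ^ 2))) = 4 * (l * B1 ^ 2) := by field_simp
  have c1 := mul_le_mul_of_nonneg_left (b1.trans (mul_le_mul_of_nonneg_left
    (mul_le_mul_of_nonneg_left hE' hq0.le) (by positivity))) (by positivity : (0:ℝ) ≤ 1 / q)
  have d1 : 1 / (q:ℝ) * ((2 / l) ^ 2 * (q * (h * B2 ^ 2))) = 4 * (h * (B2 / l) ^ 2) := by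
    field_simp; ring
  have c2 := mul_le_mul_of_nonneg_left b2 (by positivity : (0:ℝ) ≤ 1 / (l ^ 2 * q))
  have d2 : 1 / (l ^ 2 * q) * (2 ^ 2 * (q * E)) = 4 * (E / l ^ 2) := by field_simp; ring
  have c3 := mul_le_mul_of_nonneg_left ((hfI _ hsb).trans (mul_le_mul_of_nonneg_left b3
    (by positivity))) (by positivity : (0:ℝ) ≤ 1 / l ^ 2)
  have d3 : 1 / l ^ 2 * (h * E * (4 / h)) = 4 * (E / l ^ 2) := by field_simp
  have c4 := mul_le_mul n4 b4 (I2_nonneg _) (by positivity)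
  have d4 : 1 / l ^ 2 * (1 ^ 2 * E) = E / l ^ 2 := by ring
  have c5 := mul_le_mul n5 (b5.trans (mul_le_mul_of_nonneg_left
    (mul_le_mul_of_nonneg_left hE' (by positivity)) (by norm_num))) (I2_nonneg _) zero_le_one
  have d5 : 1 * (1 ^ 2 * ((2 / l) ^ 2 * (h * B2 ^ 2))) = 4 * (h * (B2 / l) ^ 2) := by ring
  have d6 : h * E * (1 / (h * l ^ 4)) ≤ E / l ^ 2 := by
    have : h * E * (1 / (h * l ^ 4)) = E / l ^ 4 := by field_simp
    rw [this]
    exact div_le_div_of_nonneg_left hE0 (by positivity) (pow_le_pow_right₀ (by linarith) (by norm_num))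
  have p1 : 0 ≤ l * B1 ^ 2 := by positivity
  have p2 : 0 ≤ h * (B2 / l) ^ 2 := by positivity
  rw [n1, n2, n3, norm_neg (1:ℂ), norm_one]
  linarith

end Vale.Agent.P130
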