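import Vale.Agent.P130.L2
import Vale.Agent.P110.Flat

/-! A single chirp supported on an interval, sums with disjoint supports, and rounding. -/

namespace Vale.Agent.P130

open Real Finset MeasureTheory intervalIntegral Vale.Agent.P110

lemma disj_sum {ι : Type*} [DecidableEq ι] (W : ι → ℂ) (h : ∀ p p', p ≠ p' → W p = 0 ∨ W p' = 0)
    (s : Finset ι) : (∀ p ∈ s, W p = 0) ∨ ∃ p ∈ s, W p ≠ 0 ∧ ∀ p', p' ≠ p → W p' = 0 := by
  by_cases h0 : ∀ p ∈ s, W p = 0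
  · exact Or.inl h0
  · push Not at h0
    obtain ⟨p, hp, hp0⟩ := h0
    exact Or.inr ⟨p, hp, hp0, fun p' hp' => (h p' p hp').resolve_right hp0⟩

lemma disj_norm_sq {ι : Type*} [DecidableEq ι] (W : ι → ℂ)
    (h : ∀ p p', p ≠ p' → W p = 0 ∨ W p' = 0) (s : Finset ι) :
    ‖∑ p ∈ s, W p‖ ^ 2 = ∑ p ∈ s, ‖W p‖ ^ 2 := by
  rcases disj_sum W h s with h0 | ⟨p, hp, -, h1⟩
  · rw [Finset.sum_eq_zero h0, Finset.sum_eq_zero fun p hp => by rw [h0 p hp]; simp]; simp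
  · rw [Finset.sum_eq_single_of_mem p hp fun p' _ hp' => h1 p' hp',
      Finset.sum_eq_single_of_mem p hp fun p' _ hp' => by rw [h1 p' hp']; simp]

lemma disj_norm {ι : Type*} [DecidableEq ι] (W : ι → ℂ)
    (h : ∀ p p', p ≠ p' → W p = 0 ∨ W p' = 0) (h1 : ∀ p, W p = 0 ∨ ‖W p‖ = 1) (s : Finset ι) :
    ∑ p ∈ s, W p = 0 ∨ ‖∑ p ∈ s, W p‖ = 1 := by
  rcases disj_sum W h s with h0 | ⟨p, hp, h2, h3⟩
  · exact Or.inl (Finset.sum_eq_zero h0)
  · rw [Finset.sum_eq_single_of_mem p hp fun p' _ hp' => h3 p' hp']; exact h1 p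

lemma disj_disj {ι : Type*} [DecidableEq ι] (W : ι → ℂ)
    (h : ∀ p p', p ≠ p' → W p = 0 ∨ W p' = 0) {s s' : Finset ι} (hs : Disjoint s s') :
    ∑ p ∈ s, W p = 0 ∨ ∑ p ∈ s', W p = 0 := by
  rcases disj_sum W h s with h0 | ⟨p, hp, -, h3⟩
  · exact Or.inl (Finset.sum_eq_zero h0)
  · exact Or.inr (Finset.sum_eq_zero fun p' hp' => h3 p' fun e =>
      Finset.disjoint_left.1 hs hp (e ▸ hp'))

lemma I2_disj {ι : Type*} [DecidableEq ι] (W : ι → ℝ → ℂ) (hb : ∀ p, BM (W p))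
    (h : ∀ t p p', p ≠ p' → W p t = 0 ∨ W p' t = 0) (s : Finset ι) :
    I2 (fun t => ∑ p ∈ s, W p t) = ∑ p ∈ s, I2 (W p) := by
  unfold I2
  rw [← intervalIntegral.integral_finsetSum fun i _ => (hb i).ii2 _ _]
  exact intervalIntegral.integral_congr fun t _ => disj_norm_sq (fun p => W p t) (h t) s

lemma integral_ind {E : Type*} [NormedAddCommGroup E] [NormedSpace ℝ E] (g : ℝ → E) {x y : ℝ}
    (h0 : 0 ≤ x) (hxy : x ≤ y) (h1 : y ≤ 1) :
    ∫ t in (0:ℝ)..1, (Set.Ioo x y).indicator g t = ∫ t in x..y, g t := by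
  rw [intervalIntegral.integral_of_le zero_le_one, intervalIntegral.integral_of_le hxy,
    setIntegral_indicator measurableSet_Ioo, integral_Ioc_eq_integral_Ioo,
    Set.inter_eq_right.2 (show Set.Ioo x y ⊆ Set.Ioc 0 1 from
      fun t ht => ⟨lt_of_le_of_lt h0 ht.1, ht.2.le.trans h1⟩)]

lemma fc_sum {ι : Type*} (s : Finset ι) {f : ι → ℝ → ℂ} (hf : ∀ i ∈ s, BM (f i)) (k : ℝ) :
    fc (fun t => ∑ i ∈ s, f i t) k = ∑ i ∈ s, fc (f i) k := by
  unfold fc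
  simp_rw [Finset.sum_mul]
  exact intervalIntegral.integral_finsetSum fun i hi =>
    ((hf i hi).mul (BM.ee (by fun_prop))).ii _ _

lemma fc_refl (V : ℝ → ℂ) (k : ℤ) :
    fc (fun t => (starRingEnd ℂ) (V (1 - t))) k = (starRingEnd ℂ) (fc V k) := by
  unfold fc
  rw [← intervalIntegral.intervalIntegral_conj]
  have := intervalIntegral.integral_comp_sub_left (a := 0) (b := 1)
    (fun x => (starRingEnd ℂ) (V x * ee (-(k * x)))) 1
  rw [sub_self, sub_zero] at this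
  rw [← this]
  refine intervalIntegral.integral_congr fun t _ => ?_
  simp only [map_mul]
  rw [← ee_neg, ee_eq_of_sub_int (x := - -(k * (1 - t))) (y := -(k * t)) k (by ring)]

lemma I2_refl (V : ℝ → ℂ) : I2 (fun t => (starRingEnd ℂ) (V (1 - t))) = I2 V := by
  unfold I2
  have := intervalIntegral.integral_comp_sub_left (a := 0) (b := 1) (fun x => ‖V x‖ ^ 2) 1
  rw [sub_self, sub_zero] at this
  simpa using this

/-- A chirp supported on an interval. -/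
noncomputable def chirp (Y : ℝ → ℝ) (x l c A1 A2 : ℝ) : ℝ → ℂ :=
  (Set.Ioo x (x + l)).indicator fun t => ee (c + A1 * (t - x) + A2 * l * Y ((t - x) / l))

lemma chirp_BM {Y : ℝ → ℝ} (hY : Continuous Y) (x l c A1 A2 : ℝ) : BM (chirp Y x l c A1 A2) :=
  (BM.ee (Continuous.measurable (by fun_prop))).indicator measurableSet_Ioo

lemma chirp_norm (Y : ℝ → ℝ) (x l c A1 A2 t : ℝ) :
    chirp Y x l c A1 A2 t = 0 ∨ (‖chirp Y x l c A1 A2 t‖ = 1 ∧ x < t ∧ t < x + l) := by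
  unfold chirp
  by_cases h : t ∈ Set.Ioo x (x + l)
  · right; rw [Set.indicator_of_mem h]; exact ⟨norm_ee _, h⟩
  · left; exact Set.indicator_of_notMem h _

lemma chirp_I2 (Y : ℝ → ℝ) {x l : ℝ} (c A1 A2 : ℝ) (h0 : 0 ≤ x) (hl : 0 < l) (h1 : x + l ≤ 1) :
    I2 (chirp Y x l c A1 A2) = l := by
  have h : ∀ t, ‖chirp Y x l c A1 A2 t‖ ^ 2 = (Set.Ioo x (x + l)).indicator (fun _ => (1:ℝ)) t := by
    intro t
    unfold chirp
    by_cases h : t ∈ Set.Ioo x (x + l)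
    · simp [Set.indicator_of_mem h]
    · simp [Set.indicator_of_notMem h]
  unfold I2
  simp_rw [h]
  rw [integral_ind _ h0 (by linarith) h1]; simp

lemma chirp_fc (Y : ℝ → ℝ) {x l : ℝ} (c A1 : ℝ) {A2 : ℝ} (hA : A2 ≠ 0) (h0 : 0 ≤ x) (hl : 0 < l)
    (h1 : x + l ≤ 1) (k : ℝ) :
    fc (chirp Y x l c A1 A2) k = ee (c - k * x) * (l * JJ Y (A2 * l) ((k - A1) / A2)) := by
  have h : ∀ t, chirp Y x l c A1 A2 t * ee (-(k * t)) = (Set.Ioo x (x + l)).indicator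
      (fun t => ee (c + A1 * (t - x) + A2 * l * Y ((t - x) / l) - k * t)) t := by
    intro t
    unfold chirp
    by_cases h : t ∈ Set.Ioo x (x + l)
    · simp only [Set.indicator_of_mem h]; rw [← ee_add]; rfl
    · simp [Set.indicator_of_notMem h]
  unfold fc
  simp_rw [h]
  rw [integral_ind _ h0 (by linarith) h1, sweep_int Y _ (c := c - k * x) (κ := k - A1) hl hA
    fun u _ => by ring, mul_assoc]

lemma prod_ge {B : Type*} [DecidableEq B] (S : Finset B) (g : B → ℝ) (h0 : ∀ j, 0 ≤ g j)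
    (h1 : ∀ j, g j ≤ 1) : 1 - ∑ j ∈ S, (1 - g j) ≤ ∏ j ∈ S, g j := by
  induction S using Finset.induction_on with
  | empty => simp
  | insert a s ha ih =>
    rw [Finset.sum_insert ha, Finset.prod_insert ha]
    have h2 : ∏ j ∈ s, g j ≤ 1 := Finset.prod_le_one (fun j _ => h0 j) fun j _ => h1 j
    nlinarith [h0 a, h1 a]

/-- The sign of a real number, with values `1` and `-1`. -/
noncomputable def sg (x : ℝ) : ℝ := if 0 ≤ x then 1 else -1

lemma sg_or (x : ℝ) : sg x = 1 ∨ sg x = -1 := by unfold sg; split_ifs <;> simp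

lemma sg_mul (x : ℝ) : sg x * x = |x| := by
  unfold sg; split_ifs with h
  · rw [one_mul, abs_of_nonneg h]
  · rw [abs_of_neg (not_le.1 h)]; ring

lemma abs_prod_sg {B : Type*} (S : Finset B) (G : B → ℝ) : |∏ j ∈ S, sg (G j)| = 1 := by
  rw [Finset.abs_prod]
  exact Finset.prod_eq_one fun j _ => by rcases sg_or (G j) with h | h <;> simp [h]

lemma round_pt {B : Type*} [DecidableEq B] {ρ a : ℝ} (hρ : 0 < ρ) (hρ1 : ρ ≤ 1) (G : B → ℝ)
    (y : Finset B → ℝ) (ha0 : 0 ≤ a) (ha : a ≤ 1 + ρ) (hG : ∀ j, |G j| ≤ 1 + ρ)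
    (hy : ∀ S : Finset B, S.Nonempty → |y S - a * ∏ j ∈ S, G j| ≤ ρ) {S : Finset B}
    (hS : S.Nonempty) :
    1 - ρ - 2 * ∑ j ∈ S, (1 - y {j} ^ 2 + 24 * ρ) ≤ (∏ j ∈ S, sg (G j)) * y S := by
  set A := 1 + ρ with hA
  have hA1 : 1 ≤ A := by linarith
  have hA0 : 0 < A := by linarith
  have h1 : (∏ j ∈ S, sg (G j)) * y S = a * ∏ j ∈ S, |G j| +
      (∏ j ∈ S, sg (G j)) * (y S - a * ∏ j ∈ S, G j) := by
    simp_rw [← sg_mul]; rw [Finset.prod_mul_distrib]; ring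
  have h2 : |(∏ j ∈ S, sg (G j)) * (y S - a * ∏ j ∈ S, G j)| ≤ ρ := by
    rw [abs_mul, abs_prod_sg, one_mul]; exact hy S hS
  have g0 : ∀ j, 0 ≤ |G j| / A := fun j => by positivity
  have g1 : ∀ j, |G j| / A ≤ 1 := fun j => (div_le_one hA0).2 (hG j)
  have a1 : a / A ≤ 1 := (div_le_one hA0).2 ha
  have a0 : 0 ≤ a / A := by positivity
  have h3 : a / A * ∏ j ∈ S, (|G j| / A) ≤ a * ∏ j ∈ S, |G j| :=
    mul_le_mul (div_le_self ha0 hA1) (Finset.prod_le_prod (fun j _ => g0 j)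
      fun j _ => div_le_self (abs_nonneg _) hA1) (Finset.prod_nonneg fun j _ => g0 j) ha0
  have h4 := prod_ge S _ g0 g1
  have h5 : ∏ j ∈ S, (|G j| / A) ≤ 1 := Finset.prod_le_one (fun j _ => g0 j) fun j _ => g1 j
  have h6 : 1 - a / A ≤ ∑ j ∈ S, (1 - a / A) := by
    obtain ⟨j, hj⟩ := hS
    exact Finset.single_le_sum (f := fun _ => 1 - a / A) (fun _ _ => by linarith) hj
  have h7 : ∑ j ∈ S, (1 - a / A) + ∑ j ∈ S, (1 - |G j| / A) ≤
      2 * ∑ j ∈ S, (1 - y {j} ^ 2 + 24 * ρ) := by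
    rw [← Finset.sum_add_distrib, Finset.mul_sum]
    refine Finset.sum_le_sum fun j _ => ?_
    have q1 := hy {j} (Finset.singleton_nonempty j)
    rw [Finset.prod_singleton] at q1
    have q2 : |y {j}| ≤ a * |G j| + ρ := by
      have := abs_sub_abs_le_abs_sub (y {j}) (a * G j)
      rw [abs_mul, abs_of_nonneg ha0] at this; linarith
    obtain ⟨z, hz⟩ : ∃ z, z = a / A * (|G j| / A) := ⟨_, rfl⟩
    have z0 : 0 ≤ z := by rw [hz]; exact mul_nonneg a0 (g0 j)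
    have z1 : z ≤ a / A := by rw [hz]; exact mul_le_of_le_one_right a0 (g1 j)
    have z2 : z ≤ |G j| / A := by rw [hz]; exact mul_le_of_le_one_left (g0 j) a1
    have z3 : a * |G j| = z * A ^ 2 := by rw [hz]; field_simp
    have q3 := pow_le_pow_left₀ (abs_nonneg _) q2 2
    rw [sq_abs, z3] at q3
    have z4 : z ≤ 1 := z1.trans a1
    have A2 : A ^ 2 ≤ 1 + 3 * ρ := by rw [hA]; nlinarith
    have q4 : z * A ^ 2 + ρ ≤ z + 4 * ρ := by nlinarith
    have q5 := pow_le_pow_left₀ (by positivity) q4 2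
    nlinarith
  have := abs_le.1 h2
  nlinarith

end Vale.Agent.P130
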